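import Vale.Agent.Lib.P098.Bld.KF

/-!
# P098: elimination of the third derivatives (certificates with `E = N^a`)

`elim_core` is the algebraic core; `KCert.flat_of_elim` reduces the flat inequality of
`KCert.Hyp` to one scalar inequality.
-/

namespace Vale.Agent.P098

/-- norm of the trace-free part in direction `X` -/
noncomputable def Kx (k : ℕ) (x : ℝ) : ℝ := (1 + 2 * x ^ 2) / 3 - 4 * x ^ 2 / (3 * (k + 2))

/-- mixed term -/
noncomputable def Kxv (k : ℕ) (x c : ℝ) : ℝ :=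
  (c + 2 * x ^ 3) / 3 - 2 * x * (1 + 2 * x ^ 2) / (3 * (k + 2))

/-- norm of the trace-free part in direction `V` -/
noncomputable def Kvv (k : ℕ) (x D : ℝ) : ℝ :=
  (D + 2 * x ^ 4) / 3 - (1 + 2 * x ^ 2) ^ 2 / (3 * (k + 2))

theorem sum_shift_sq {k : ℕ} (t a : Fin k → ℝ) (i : Fin k) :
    0 ≤ 3 * ∑ j, t j ^ 2 - 2 * t i ^ 2 - 2 * ∑ j, t j * a j + 1 / 3 * ∑ j, a j ^ 2 +
      2 / 3 * a i ^ 2 := by
  have h1 : (3 * t i - a i) ^ 2 / 3 ≤ ∑ j, (3 * t j - a j) ^ 2 / 3 :=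
    Finset.single_le_sum (f := fun j => (3 * t j - a j) ^ 2 / 3)
      (fun j _ => by positivity) (Finset.mem_univ i)
  have h2 : ∑ j, (3 * t j - a j) ^ 2 / 3 =
      3 * ∑ j, t j ^ 2 - 2 * ∑ j, t j * a j + 1 / 3 * ∑ j, a j ^ 2 := by
    simp only [Finset.mul_sum, ← Finset.sum_add_distrib, ← Finset.sum_sub_distrib]
    exact Finset.sum_congr rfl fun j _ => by ring
  rw [h2] at h1
  nlinarith [sq_nonneg (t i - a i)]

theorem quad_sum {k : ℕ} (l : Fin k → ℝ) (h1 : ∑ j, l j = 0) (h2 : ∑ j, l j ^ 2 = 1) (i : Fin k)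
    (p q : ℝ) (μ : ℝ) (hμ : μ * (k + 2) = q + 2 * (p * l i + q * l i ^ 2)) :
    1 / 3 * ∑ j, (p * l j + q * l j ^ 2 - μ) ^ 2 +
      2 / 3 * (p * l i + q * l i ^ 2 - μ) ^ 2 =
      p ^ 2 * Kx k (l i) + 2 * p * q * Kxv k (l i) (∑ j, l j ^ 3) +
        q ^ 2 * Kvv k (l i) (∑ j, l j ^ 4) := by
  have hk : ((k : ℝ) + 2) ≠ 0 := by positivity
  have e : ∑ j, (p * l j + q * l j ^ 2 - μ) ^ 2 =
      p ^ 2 * ∑ j, l j ^ 2 + 2 * p * q * ∑ j, l j ^ 3 + q ^ 2 * ∑ j, l j ^ 4 -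
      2 * μ * p * ∑ j, l j - 2 * μ * q * ∑ j, l j ^ 2 + k * μ ^ 2 := by
    have : (k : ℝ) * μ ^ 2 = ∑ _j : Fin k, μ ^ 2 := by simp
    rw [this]
    simp only [Finset.mul_sum, ← Finset.sum_add_distrib, ← Finset.sum_sub_distrib]
    exact Finset.sum_congr rfl fun j _ => by ring
  rw [e, h1, h2]
  have hμ' : μ = (q + 2 * (p * l i + q * l i ^ 2)) / (k + 2) := by
    field_simp
    linarith
  unfold Kx Kxv Kvv
  rw [hμ']
  field_simp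
  ring

/-- the bound for the square of `T` -/
theorem T2_ge {k : ℕ} (l t : Fin k → ℝ) (h1 : ∑ j, l j = 0) (h2 : ∑ j, l j ^ 2 = 1)
    (ht : ∑ j, t j = 0) (i : Fin k) (p q : ℝ) :
    2 * (p * ∑ j, l j * t j + q * ∑ j, l j ^ 2 * t j) -
      (p ^ 2 * Kx k (l i) + 2 * p * q * Kxv k (l i) (∑ j, l j ^ 3) +
        q ^ 2 * Kvv k (l i) (∑ j, l j ^ 4)) ≤ 3 * ∑ j, t j ^ 2 - 2 * t i ^ 2 := by
  have hk : ((k : ℝ) + 2) ≠ 0 := by positivity
  set μ : ℝ := (q + 2 * (p * l i + q * l i ^ 2)) / (k + 2) with hμ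
  have hμ' : μ * (k + 2) = q + 2 * (p * l i + q * l i ^ 2) := by
    rw [hμ]; field_simp
  have ha := sum_shift_sq t (fun j => p * l j + q * l j ^ 2 - μ) i
  have hq := quad_sum l h1 h2 i p q μ hμ'
  have hs : ∑ j, t j * (p * l j + q * l j ^ 2 - μ) =
      p * ∑ j, l j * t j + q * ∑ j, l j ^ 2 * t j := by
    have e : ∑ j, t j * (p * l j + q * l j ^ 2 - μ) =
        p * ∑ j, l j * t j + q * ∑ j, l j ^ 2 * t j - μ * ∑ j, t j := by
      simp only [Finset.mul_sum, ← Finset.sum_add_distrib, ← Finset.sum_sub_distrib]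
      exact Finset.sum_congr rfl fun j _ => by ring
    rw [e, ht]; ring
  rw [hs] at ha
  linarith

theorem Kdet_nonneg {k : ℕ} (l : Fin k → ℝ) (h1 : ∑ j, l j = 0) (h2 : ∑ j, l j ^ 2 = 1)
    (i : Fin k) :
    0 ≤ Kx k (l i) * Kvv k (l i) (∑ j, l j ^ 4) - Kxv k (l i) (∑ j, l j ^ 3) ^ 2 := by
  have hq : ∀ p q : ℝ, 0 ≤ p ^ 2 * Kx k (l i) + 2 * p * q * Kxv k (l i) (∑ j, l j ^ 3) +
        q ^ 2 * Kvv k (l i) (∑ j, l j ^ 4) := by
    intro p q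
    have hk : ((k : ℝ) + 2) ≠ 0 := by positivity
    rw [← quad_sum l h1 h2 i p q ((q + 2 * (p * l i + q * l i ^ 2)) / (k + 2))
      (by field_simp)]
    have : 0 ≤ ∑ j, (p * l j + q * l j ^ 2 -
        (q + 2 * (p * l i + q * l i ^ 2)) / (k + 2)) ^ 2 :=
      Finset.sum_nonneg fun j _ => sq_nonneg _
    positivity
  have hx : 0 ≤ Kx k (l i) := by
    have := hq 1 0
    linarith
  rcases hx.eq_or_lt with hx0 | hx0
  · -- then `Kxv = 0`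
    have h0 : Kxv k (l i) (∑ j, l j ^ 3) = 0 := by
      by_contra hne
      have hv := hq (-(Kvv k (l i) (∑ j, l j ^ 4) + 1) / (2 * Kxv k (l i) (∑ j, l j ^ 3))) 1
      rw [← hx0] at hv
      have : 2 * (-(Kvv k (l i) (∑ j, l j ^ 4) + 1) / (2 * Kxv k (l i) (∑ j, l j ^ 3))) * 1 *
          Kxv k (l i) (∑ j, l j ^ 3) = -(Kvv k (l i) (∑ j, l j ^ 4) + 1) := by
        field_simp
      rw [this] at hv
      linarith
    rw [h0, ← hx0]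
    norm_num
  · have := hq (-Kxv k (l i) (∑ j, l j ^ 3)) (Kx k (l i))
    have h3 : Kx k (l i) * (Kx k (l i) * Kvv k (l i) (∑ j, l j ^ 4) -
        Kxv k (l i) (∑ j, l j ^ 3) ^ 2) = (-Kxv k (l i) (∑ j, l j ^ 3)) ^ 2 * Kx k (l i) +
        2 * (-Kxv k (l i) (∑ j, l j ^ 3)) * Kx k (l i) * Kxv k (l i) (∑ j, l j ^ 3) +
        Kx k (l i) ^ 2 * Kvv k (l i) (∑ j, l j ^ 4) := by ring
    rw [← h3] at this
    exact (mul_nonneg_iff_of_pos_left hx0).1 this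

theorem Kx_pos (k : ℕ) (x : ℝ) : 0 < Kx k x := by
  unfold Kx
  have hk : (0 : ℝ) < k + 2 := by positivity
  have h1 : 4 * x ^ 2 / (3 * ((k : ℝ) + 2)) ≤ 2 * x ^ 2 / 3 := by
    rw [div_le_div_iff₀ (by positivity) (by norm_num)]
    have : (0 : ℝ) ≤ k := Nat.cast_nonneg k
    nlinarith [mul_nonneg (sq_nonneg x) this]
  have : (1 + 2 * x ^ 2) / 3 = 1 / 3 + 2 * x ^ 2 / 3 := by ring
  rw [this]
  linarith

/-- the algebraic core of the elimination -/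
theorem elim_core {G gb X1 X2 X3 Lx Lv c0 C0 s ρ X V T2 r : ℝ} (hs : 0 < s) (hG : 0 < G)
    (hK : 0 < X1) (hdet : 0 ≤ X1 * X3 - X2 ^ 2) (hD : 0 < G - gb * X1) (hρ : ρ * G ≤ gb)
    (hT : ∀ p q : ℝ, 2 * (p * X + q * V) - (p ^ 2 * X1 + 2 * p * q * X2 + q ^ 2 * X3) ≤ T2)
    (hFF : 0 ≤ 4 * (G - gb * X1) * (s * c0 + C0) -
      s * (Lx ^ 2 * X1 + 2 * Lx * Lv * X2 + Lv ^ 2 * X3) +
      s * ρ * Lv ^ 2 * (X1 * X3 - X2 ^ 2)) :
    0 ≤ s * (G * T2 - gb * X ^ 2 + r * (X * Lx) + r * (V * Lv) + r ^ 2 * c0) + C0 * r ^ 2 := by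
  set q : ℝ := -(r * Lv) / (2 * G) with hq
  set p : ℝ := (X - q * X2) / X1 with hp
  have h1 := hT p q
  have h2 : 2 * (p * X + q * V) - (p ^ 2 * X1 + 2 * p * q * X2 + q ^ 2 * X3) =
      (X - q * X2) ^ 2 / X1 - q ^ 2 * X3 + 2 * q * V := by
    rw [hp]; field_simp; ring
  rw [h2] at h1
  have h3 : G * ((X - q * X2) ^ 2 / X1 - q ^ 2 * X3 + 2 * q * V) ≤ G * T2 :=
    mul_le_mul_of_nonneg_left h1 hG.le
  have h4 : G * ((X - q * X2) ^ 2 / X1 - q ^ 2 * X3 + 2 * q * V) =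
      G / X1 * X ^ 2 + r * X * (Lv * X2 / X1) - r ^ 2 * (Lv ^ 2 * (X1 * X3 - X2 ^ 2) /
        (4 * G * X1)) - r * (V * Lv) := by
    rw [hq]; field_simp; ring
  rw [h4] at h3
  -- the remaining binary form
  set A : ℝ := (G - gb * X1) / X1 with hA
  set B : ℝ := Lv * X2 / X1 + Lx with hB
  set C : ℝ := s * c0 + C0 - s * (Lv ^ 2 * (X1 * X3 - X2 ^ 2) / (4 * G * X1)) with hC
  have hApos : 0 < A := div_pos hD hK
  have h5 : s * (A * X ^ 2 + B * (X * r)) + C * r ^ 2 ≤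
      s * (G * T2 - gb * X ^ 2 + r * (X * Lx) + r * (V * Lv) + r ^ 2 * c0) + C0 * r ^ 2 := by
    have h6 : s * (A * X ^ 2 + B * (X * r)) + C * r ^ 2 = s * ((G / X1 * X ^ 2 +
        r * X * (Lv * X2 / X1) - r ^ 2 * (Lv ^ 2 * (X1 * X3 - X2 ^ 2) /
        (4 * G * X1)) - r * (V * Lv)) - gb * X ^ 2 + r * (X * Lx) + r * (V * Lv) +
        r ^ 2 * c0) + C0 * r ^ 2 := by
      rw [hA, hB, hC]; field_simp; ring
    rw [h6]
    have := mul_le_mul_of_nonneg_left h3 hs.le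
    nlinarith [this]
  refine le_trans ?_ h5
  have h7 : 0 ≤ 4 * A * C - s * B ^ 2 := by
    have h8 : X1 * (4 * A * C - s * B ^ 2) = 4 * (G - gb * X1) * (s * c0 + C0) -
        s * (Lx ^ 2 * X1 + 2 * Lx * Lv * X2 + Lv ^ 2 * X3) +
        s * (gb / G) * Lv ^ 2 * (X1 * X3 - X2 ^ 2) := by
      rw [hA, hB, hC]; field_simp; ring
    have h9 : ρ ≤ gb / G := by
      rw [le_div_iff₀ hG]; exact hρ
    have h10 : s * ρ * Lv ^ 2 * (X1 * X3 - X2 ^ 2) ≤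
        s * (gb / G) * Lv ^ 2 * (X1 * X3 - X2 ^ 2) := by
      have := mul_le_mul_of_nonneg_left h9
        (mul_nonneg (mul_nonneg hs.le (sq_nonneg Lv)) hdet)
      nlinarith [this]
    have h11 : 0 ≤ X1 * (4 * A * C - s * B ^ 2) := by
      rw [h8]; linarith
    exact (mul_nonneg_iff_of_pos_left hK).1 h11
  have h12 : 4 * A * (s * (A * X ^ 2 + B * (X * r)) + C * r ^ 2) =
      s * (2 * A * X + B * r) ^ 2 + (4 * A * C - s * B ^ 2) * r ^ 2 := by ring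
  have h13 : 0 ≤ 4 * A * (s * (A * X ^ 2 + B * (X * r)) + C * r ^ 2) := by
    rw [h12]
    have := mul_nonneg h7 (sq_nonneg r)
    have := mul_nonneg hs.le (sq_nonneg (2 * A * X + B * r))
    linarith
  exact (mul_nonneg_iff_of_pos_left (by positivity : (0 : ℝ) < 4 * A)).1 h13

/-- the coefficient `gb` of `-X²` after the elimination of `y` -/
def KCert.gb (K : KCert) (a s z c : ℝ) : ℝ := a ^ 2 - K.cXX a s z c

/-- the final scalar -/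
noncomputable def KCert.FF (K : KCert) (k : ℕ) (a ρ s z c D x : ℝ) : ℝ :=
  4 * (K.G.f s z c - K.gb a s z c * Kx k x) * (s * K.cr s z c x + K.C0 s z c D) -
    s * (K.cX a s z c x ^ 2 * Kx k x + 2 * K.cX a s z c x * K.cV s z c x * Kxv k x c +
      K.cV s z c x ^ 2 * Kvv k x D) +
    s * ρ * K.cV s z c x ^ 2 * (Kx k x * Kvv k x D - Kxv k x c ^ 2)

/-- **Elimination.**  The flat inequality follows from `0 ≤ FF`, for `E = N^a` and `G`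
independent of `c`. -/
theorem KCert.flat_of_elim (K : KCert) {k : ℕ} {a s z ρ : ℝ} (l : Fin k → ℝ)
    (h1 : ∑ j, l j = 0) (h2 : ∑ j, l j ^ 2 = 1) (i : Fin k) (hs : 0 < s)
    (he : K.e.f s z (∑ j, l j ^ 3) = 1) (hes : K.e.fs s z (∑ j, l j ^ 3) = 0)
    (hez : K.e.fz s z (∑ j, l j ^ 3) = 0) (hec : K.e.fc s z (∑ j, l j ^ 3) = 0)
    (hGc : K.G.fc s z (∑ j, l j ^ 3) = 0) (hG : 0 < K.G.f s z (∑ j, l j ^ 3))
    (hD : 0 < K.G.f s z (∑ j, l j ^ 3) - K.gb a s z (∑ j, l j ^ 3) * Kx k (l i))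
    (hρ : ρ * K.G.f s z (∑ j, l j ^ 3) ≤ K.gb a s z (∑ j, l j ^ 3))
    (hFF : 0 ≤ K.FF k a ρ s z (∑ j, l j ^ 3) (∑ j, l j ^ 4) (l i))
    (t : Fin k → ℝ) (ht : ∑ j, t j = 0) (y r : ℝ) :
    0 ≤ s * K.form a s z (∑ j, l j ^ 3) (l i) (3 * ∑ j, t j ^ 2 - 2 * t i ^ 2)
      (∑ j, l j * t j) (∑ j, l j ^ 2 * t j) y r +
      K.C0 s z (∑ j, l j ^ 3) (∑ j, l j ^ 4) * r ^ 2 := by
  have hc := elim_core (G := K.G.f s z (∑ j, l j ^ 3)) (gb := K.gb a s z (∑ j, l j ^ 3))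
    (X1 := Kx k (l i)) (X2 := Kxv k (l i) (∑ j, l j ^ 3)) (X3 := Kvv k (l i) (∑ j, l j ^ 4))
    (Lx := K.cX a s z (∑ j, l j ^ 3) (l i)) (Lv := K.cV s z (∑ j, l j ^ 3) (l i))
    (c0 := K.cr s z (∑ j, l j ^ 3) (l i)) (C0 := K.C0 s z (∑ j, l j ^ 3) (∑ j, l j ^ 4))
    (s := s) (ρ := ρ) (X := ∑ j, l j * t j) (V := ∑ j, l j ^ 2 * t j)
    (T2 := 3 * ∑ j, t j ^ 2 - 2 * t i ^ 2) (r := r) hs hG (Kx_pos k (l i))
    (Kdet_nonneg l h1 h2 i) hD hρ (fun p q => T2_ge l t h1 h2 ht i p q)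
    (by
      unfold KCert.FF at hFF
      linarith)
  refine le_trans hc ?_
  have hform : K.form a s z (∑ j, l j ^ 3) (l i) (3 * ∑ j, t j ^ 2 - 2 * t i ^ 2)
      (∑ j, l j * t j) (∑ j, l j ^ 2 * t j) y r =
      K.G.f s z (∑ j, l j ^ 3) * (3 * ∑ j, t j ^ 2 - 2 * t i ^ 2) -
        K.gb a s z (∑ j, l j ^ 3) * (∑ j, l j * t j) ^ 2 +
        r * ((∑ j, l j * t j) * K.cX a s z (∑ j, l j ^ 3) (l i)) +
        r * ((∑ j, l j ^ 2 * t j) * K.cV s z (∑ j, l j ^ 3) (l i)) +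
        r ^ 2 * K.cr s z (∑ j, l j ^ 3) (l i) + (y - a * ∑ j, l j * t j) ^ 2 := by
    unfold KCert.form KCert.gb
    rw [he, hes, hez, hec, hGc]
    ring
  rw [hform]
  have := mul_nonneg hs.le (sq_nonneg (y - a * ∑ j, l j * t j))
  nlinarith [this]

end Vale.Agent.P098
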