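import Vale.Agent.Lib.P098.Var.CDef

/-!
# P098: an orthonormal eigenframe of a symmetric matrix with a null vector
-/

open Module

namespace Vale.Agent.P098

/-- Orthonormal eigenframe of `A` on the orthogonal complement of `x`. -/
structure Frame {k : ℕ} (x : Fin (k + 1) → ℝ) (A : Fin (k + 1) → Fin (k + 1) → ℝ)
    (b : Fin k → Fin (k + 1) → ℝ) (l : Fin k → ℝ) : Prop where
  ort : ∀ i j, ∑ a, b i a * b j a = if i = j then 1 else 0
  xb : ∀ i, ∑ a, x a * b i a = 0
  eig : ∀ i a, ∑ c, A a c * b i c = l i * b i a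
  comp : ∀ a c, ∑ i, b i a * b i c + x a * x c = if a = c then 1 else 0

theorem exists_frame {k : ℕ} (x : Fin (k + 1) → ℝ) (A : Fin (k + 1) → Fin (k + 1) → ℝ)
    (hx : ∑ i, x i ^ 2 = 1) (hA : ∀ i j, A i j = A j i) (hAx : ∀ j, ∑ i, x i * A i j = 0) :
    ∃ b l, Frame x A b l := by
  classical
  set X : EuclideanSpace ℝ (Fin (k + 1)) := WithLp.toLp 2 x with hX
  have hXn : ‖X‖ = 1 := by
    rw [EuclideanSpace.norm_eq]
    have : ∑ i, ‖X i‖ ^ 2 = 1 := by simpa [hX] using hx
    rw [this, Real.sqrt_one]
  have hX0 : X ≠ 0 := by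
    intro h
    rw [h, norm_zero] at hXn
    exact zero_ne_one hXn
  have hinner : ∀ v w : EuclideanSpace ℝ (Fin (k + 1)), inner ℝ v w = ∑ a, w a * v a := by
    intro v w
    rw [PiLp.inner_apply]
    exact Finset.sum_congr rfl fun a _ => by simp
  set L := (Matrix.of A).toEuclideanLin with hL
  have hLa : ∀ (v : EuclideanSpace ℝ (Fin (k + 1))) (a : Fin (k + 1)),
      L v a = ∑ c, A a c * v c := by
    intro v a
    rw [hL, Matrix.toLpLin_apply]
    simp [Matrix.mulVec, dotProduct]
  have hLs : L.IsSymmetric := by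
    rw [hL, Matrix.isSymmetric_toEuclideanLin_iff]
    ext i j
    simp [Matrix.conjTranspose_apply, hA i j]
  have hLX : L X = 0 := by
    ext a
    rw [hLa]
    have := hAx a
    simp only [PiLp.zero_apply]
    rw [← this]
    exact Finset.sum_congr rfl fun c _ => by rw [hA a c]; simp [hX]; ring
  set W : Submodule ℝ (EuclideanSpace ℝ (Fin (k + 1))) := (Submodule.span ℝ {X})ᗮ with hW
  have hmem : ∀ v, v ∈ W ↔ inner ℝ X v = 0 := by
    intro v
    rw [hW, Submodule.mem_orthogonal_singleton_iff_inner_right]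
  have hinv : ∀ v ∈ W, L v ∈ W := by
    intro v hv
    rw [hmem] at hv ⊢
    rw [← hLs X v, hLX, inner_zero_left]
  have hsym := hLs.restrict_invariant hinv
  have hfin : finrank ℝ W = k := by
    have h1 := Submodule.finrank_add_finrank_orthogonal
      (Submodule.span ℝ {X} : Submodule ℝ (EuclideanSpace ℝ (Fin (k + 1))))
    rw [finrank_span_singleton hX0, finrank_euclideanSpace, Fintype.card_fin] at h1
    rw [hW]
    omega
  set B := hsym.eigenvectorBasis hfin with hB
  set l := hsym.eigenvalues hfin with hl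
  have hxb : ∀ i, inner ℝ X (B i : EuclideanSpace ℝ (Fin (k + 1))) = 0 := fun i =>
    (hmem _).1 (B i).2
  have hxx : ∑ a, x a * x a = 1 := by
    rw [← hx]
    exact Finset.sum_congr rfl fun a _ => by ring
  refine ⟨fun i a => (B i : EuclideanSpace ℝ (Fin (k + 1))) a, l, ?_, ?_, ?_, ?_⟩
  · intro i j
    have h := orthonormal_iff_ite.1 B.orthonormal j i
    rw [Submodule.coe_inner, hinner] at h
    simp only [eq_comm (a := i)]
    exact h
  · intro i
    have h := hxb i
    rw [hinner] at h
    rw [← h]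
    exact Finset.sum_congr rfl fun a _ => by simp [hX]; ring
  · intro i a
    have h := hsym.apply_eigenvectorBasis hfin i
    have h2 := congrArg (fun w : W => (w : EuclideanSpace ℝ (Fin (k + 1))) a) h
    simp only [LinearMap.restrict_coe_apply, hLa] at h2
    rw [h2]
    simp [hl, hB]
  · intro a c
    -- expand the `c`-th unit vector
    set e : EuclideanSpace ℝ (Fin (k + 1)) := EuclideanSpace.single c 1 with he
    have hXe : inner ℝ X e = x c := by
      rw [hinner, he]
      simp [hX]
    have hew : e - (x c) • X ∈ W := by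
      rw [hmem, inner_sub_right, inner_smul_right, hXe, hinner]
      have : ∑ a, X a * X a = 1 := by simpa [hX] using hxx
      rw [this]; ring
    have h := B.sum_repr ⟨_, hew⟩
    have h2 := congrArg (fun w : W => (w : EuclideanSpace ℝ (Fin (k + 1))) a) h
    have h3 : ∀ i, B.repr ⟨_, hew⟩ i = (B i : EuclideanSpace ℝ (Fin (k + 1))) c := by
      intro i
      have hbx : inner ℝ (B i : EuclideanSpace ℝ (Fin (k + 1))) X = 0 := by
        rw [real_inner_comm]
        exact hxb i
      rw [OrthonormalBasis.repr_apply_apply, Submodule.coe_inner]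
      simp only
      rw [inner_sub_right, inner_smul_right, hbx, mul_zero, sub_zero, hinner, he]
      simp
    simp only [h3] at h2
    have h4 : ((∑ i, (B i : EuclideanSpace ℝ (Fin (k + 1))) c • B i : W) :
        EuclideanSpace ℝ (Fin (k + 1))) a = ∑ i, (B i : EuclideanSpace ℝ (Fin (k + 1))) c *
          (B i : EuclideanSpace ℝ (Fin (k + 1))) a := by
      simp
    rw [h4] at h2
    have h5 : (e - (x c) • X) a = (if a = c then 1 else 0) - x c * x a := by
      simp [he, hX]
    rw [h5] at h2
    have h6 : ∑ i, (B i : EuclideanSpace ℝ (Fin (k + 1))) a *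
        (B i : EuclideanSpace ℝ (Fin (k + 1))) c = ∑ i, (B i : EuclideanSpace ℝ (Fin (k + 1))) c *
        (B i : EuclideanSpace ℝ (Fin (k + 1))) a :=
      Finset.sum_congr rfl fun i _ => mul_comm _ _
    rw [h6, h2]; ring

end Vale.Agent.P098
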