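import Vale.Agent.Lib.P098.Bld.Frame
import Vale.Agent.Lib.P098.Var.CDef

/-!
# P098: invariants of a jet in an eigenframe
-/

namespace Vale.Agent.P098

variable {k : ℕ} {x : Fin (k + 1) → ℝ} {A : Fin (k + 1) → Fin (k + 1) → ℝ}
  {b : Fin k → Fin (k + 1) → ℝ} {l : Fin k → ℝ}

theorem dot_comm' {d : ℕ} (f g : Fin d → ℝ) : dot f g = dot g f := by
  unfold dot
  exact Finset.sum_congr rfl fun a _ => mul_comm _ _

theorem dot_sum_right {d : ℕ} {ι : Type*} (s : Finset ι) (f : Fin d → ℝ) (w : ι → ℝ)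
    (g : ι → Fin d → ℝ) :
    dot f (fun a => ∑ i ∈ s, w i * g i a) = ∑ i ∈ s, w i * dot f (g i) := by
  unfold dot
  simp only [Finset.mul_sum]
  rw [Finset.sum_comm]
  exact Finset.sum_congr rfl fun i _ => Finset.sum_congr rfl fun a _ => by ring

theorem Frame.parseval (h : Frame x A b l) (f g : Fin (k + 1) → ℝ) :
    dot f g = dot x f * dot x g + ∑ i, dot (b i) f * dot (b i) g := by
  have h1 : dot f g = ∑ a, ∑ c, f a * g c * (if a = c then 1 else 0) := by
    unfold dot
    refine Finset.sum_congr rfl fun a _ => ?_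
    simp
  rw [h1]
  have h2 : ∀ a c, f a * g c * (if a = c then (1 : ℝ) else 0) =
      (x a * f a) * (x c * g c) + ∑ i, (b i a * f a) * (b i c * g c) := by
    intro a c
    rw [← h.comp a c, mul_add, Finset.mul_sum, add_comm]
    congr 1
    · ring
    · exact Finset.sum_congr rfl fun i _ => by ring
  simp only [h2, Finset.sum_add_distrib]
  congr 1
  · unfold dot
    rw [Finset.sum_mul_sum]
  · unfold dot
    simp only [Finset.sum_mul_sum]
    have : ∀ a : Fin (k + 1), ∑ c, ∑ i, (b i a * f a) * (b i c * g c) =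
        ∑ i, ∑ c, (b i a * f a) * (b i c * g c) := fun a => Finset.sum_comm
    simp only [this]
    rw [Finset.sum_comm]

theorem Frame.dot_mv (h : Frame x A b l) (hA : ∀ i j, A i j = A j i) (i : Fin k)
    (f : Fin (k + 1) → ℝ) : dot (b i) (mv A f) = l i * dot (b i) f := by
  unfold dot mv
  simp only [Finset.mul_sum]
  rw [Finset.sum_comm]
  refine Finset.sum_congr rfl fun c _ => ?_
  have : ∑ a, b i a * (A a c * f c) = (∑ a, A c a * b i a) * f c := by
    rw [Finset.sum_mul]
    exact Finset.sum_congr rfl fun a _ => by rw [hA a c]; ring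
  rw [this, h.eig]
  ring

theorem dot_x_mv (hAx : ∀ j, ∑ i, x i * A i j = 0) (f : Fin (k + 1) → ℝ) :
    dot x (mv A f) = 0 := by
  unfold dot mv
  simp only [Finset.mul_sum]
  rw [Finset.sum_comm]
  have : ∀ c, ∑ a, x a * (A a c * f c) = 0 := by
    intro c
    have h1 : ∑ a, x a * (A a c * f c) = (∑ a, x a * A a c) * f c := by
      rw [Finset.sum_mul]
      exact Finset.sum_congr rfl fun a _ => by ring
    rw [h1, hAx, zero_mul]
  simp [this]

/-- a matrix `B` with `B = Σ β_m b_m b_mᵀ` -/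
def Diag (b : Fin k → Fin (k + 1) → ℝ) (B : Fin (k + 1) → Fin (k + 1) → ℝ) (β : Fin k → ℝ) :
    Prop :=
  ∀ a c, B a c = ∑ m, β m * (b m a * b m c)

theorem Frame.diag (h : Frame x A b l) (hA : ∀ i j, A i j = A j i)
    (hAx : ∀ j, ∑ i, x i * A i j = 0) : Diag b A l := by
  intro a c
  have h1 : A a c = ∑ e, A a e * (if e = c then 1 else 0) := by simp
  rw [h1]
  have h2 : ∀ e, A a e * (if e = c then (1 : ℝ) else 0) =
      ∑ i, (A a e * b i e) * b i c + (x e * A e a) * x c := by
    intro e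
    rw [← h.comp e c, mul_add, Finset.mul_sum]
    congr 1
    · exact Finset.sum_congr rfl fun i _ => by ring
    · rw [hA a e]; ring
  simp only [h2, Finset.sum_add_distrib]
  rw [← Finset.sum_mul, hAx, zero_mul, add_zero, Finset.sum_comm]
  refine Finset.sum_congr rfl fun i _ => ?_
  rw [← Finset.sum_mul, h.eig]
  ring

theorem Diag.eig (h : Frame x A b l) {B : Fin (k + 1) → Fin (k + 1) → ℝ} {β : Fin k → ℝ}
    (hB : Diag b B β) (i : Fin k) (a : Fin (k + 1)) : ∑ c, B a c * b i c = β i * b i a := by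
  simp only [hB a, Finset.sum_mul]
  rw [Finset.sum_comm]
  have : ∀ m, ∑ c, β m * (b m a * b m c) * b i c = β m * b m a * (if m = i then 1 else 0) := by
    intro m
    rw [← h.ort m i, Finset.mul_sum]
    exact Finset.sum_congr rfl fun c _ => by ring
  simp [this]

theorem Diag.mm (h : Frame x A b l) (hA : Diag b A l) :
    Diag b (Vale.Agent.P098.mm A) (fun i => l i ^ 2) := by
  intro a c
  unfold Vale.Agent.P098.mm
  simp only [hA _ c, Finset.mul_sum]
  rw [Finset.sum_comm]
  refine Finset.sum_congr rfl fun m _ => ?_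
  have : ∑ e, A a e * (l m * (b m e * b m c)) = l m * b m c * ∑ e, A a e * b m e := by
    rw [Finset.mul_sum]
    exact Finset.sum_congr rfl fun e _ => by ring
  rw [this, h.eig]
  ring

theorem Diag.contract (h : Frame x A b l) {B C : Fin (k + 1) → Fin (k + 1) → ℝ}
    {β γ : Fin k → ℝ} (hB : Diag b B β) (hC : Diag b C γ) :
    ∑ i, ∑ j, B i j * C i j = ∑ m, β m * γ m := by
  have h1 : ∀ i j, B i j * C i j = ∑ m, γ m * (b m i * (B i j * b m j)) := by
    intro i j
    rw [hC i j, Finset.mul_sum]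
    exact Finset.sum_congr rfl fun m _ => by ring
  simp only [h1]
  have h2 : ∀ i : Fin (k + 1), ∑ j, ∑ m, γ m * (b m i * (B i j * b m j)) =
      ∑ m, γ m * β m * (b m i * b m i) := by
    intro i
    rw [Finset.sum_comm]
    refine Finset.sum_congr rfl fun m _ => ?_
    have : ∑ j, γ m * (b m i * (B i j * b m j)) = γ m * (b m i * ∑ j, B i j * b m j) := by
      simp only [Finset.mul_sum]
    rw [this, hB.eig h]
    ring
  simp only [h2]
  rw [Finset.sum_comm]
  refine Finset.sum_congr rfl fun m _ => ?_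
  rw [← Finset.mul_sum, h.ort m m]
  simp
  ring

/-- the third derivatives in the frame -/
def tau (b : Fin k → Fin (k + 1) → ℝ) (T : Fin (k + 1) → Fin (k + 1) → Fin (k + 1) → ℝ)
    (i j m : Fin k) : ℝ :=
  dot (b i) (fun a => dot (b j) (fun c => dot (b m) (fun e => T a c e)))

theorem tau_eq (T : Fin (k + 1) → Fin (k + 1) → Fin (k + 1) → ℝ) (i j m : Fin k) :
    tau b T i j m = ∑ a, ∑ c, ∑ e, b i a * b j c * b m e * T a c e := by
  unfold tau dot
  simp only [Finset.mul_sum]
  exact Finset.sum_congr rfl fun a _ => Finset.sum_congr rfl fun c _ =>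
    Finset.sum_congr rfl fun e _ => by ring

theorem tau_symm1 {T : Fin (k + 1) → Fin (k + 1) → Fin (k + 1) → ℝ}
    (h1 : ∀ i j m, T i j m = T j i m) (i j m : Fin k) : tau b T i j m = tau b T j i m := by
  rw [tau_eq, tau_eq, Finset.sum_comm]
  exact Finset.sum_congr rfl fun a _ => Finset.sum_congr rfl fun c _ =>
    Finset.sum_congr rfl fun e _ => by rw [h1 a c e]; ring

theorem tau_symm2 {T : Fin (k + 1) → Fin (k + 1) → Fin (k + 1) → ℝ}
    (h2 : ∀ i j m, T i j m = T i m j) (i j m : Fin k) : tau b T i j m = tau b T i m j := by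
  rw [tau_eq, tau_eq]
  refine Finset.sum_congr rfl fun a _ => ?_
  rw [Finset.sum_comm]
  exact Finset.sum_congr rfl fun c _ =>
    Finset.sum_congr rfl fun e _ => by rw [h2 a c e]; ring

/-- contraction of the last two indices with a diagonal matrix -/
theorem Diag.contract3 {B : Fin (k + 1) → Fin (k + 1) → ℝ} {β : Fin k → ℝ}
    (hB : Diag b B β) (T : Fin (k + 1) → Fin (k + 1) → Fin (k + 1) → ℝ) (i : Fin k) :
    dot (b i) (fun a => ∑ j, ∑ m, B j m * T a j m) = ∑ m, β m * tau b T i m m := by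
  have h1 : ∀ m, β m * tau b T i m m =
      ∑ a, ∑ c, ∑ e, b i a * (β m * (b m c * b m e) * T a c e) := by
    intro m
    rw [tau_eq]
    simp only [Finset.mul_sum]
    exact Finset.sum_congr rfl fun a _ => Finset.sum_congr rfl fun c _ =>
      Finset.sum_congr rfl fun e _ => by ring
  simp only [h1]
  have h2 : ∑ m, ∑ a, ∑ c, ∑ e, b i a * (β m * (b m c * b m e) * T a c e) =
      ∑ a, ∑ c, ∑ e, ∑ m, b i a * (β m * (b m c * b m e) * T a c e) := by
    rw [Finset.sum_comm]
    refine Finset.sum_congr rfl fun a _ => ?_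
    rw [Finset.sum_comm]
    refine Finset.sum_congr rfl fun c _ => ?_
    rw [Finset.sum_comm]
  rw [h2]
  unfold dot
  refine Finset.sum_congr rfl fun a _ => ?_
  rw [Finset.mul_sum]
  refine Finset.sum_congr rfl fun c _ => ?_
  rw [Finset.mul_sum]
  refine Finset.sum_congr rfl fun e _ => ?_
  rw [hB c e, Finset.sum_mul, Finset.mul_sum]

end Vale.Agent.P098
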