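import Vale.Agent.Lib.P098.Bld.FrameId

/-!
# P098: the norm and the traces of the third derivatives in an eigenframe
-/

namespace Vale.Agent.P098

variable {k : ℕ} {x p : Fin (k + 1) → ℝ} {A : Fin (k + 1) → Fin (k + 1) → ℝ}
  {T : Fin (k + 1) → Fin (k + 1) → Fin (k + 1) → ℝ}
  {b : Fin k → Fin (k + 1) → ℝ} {l : Fin k → ℝ}

theorem Jet.Tx3 (hJ : Jet x p A T) (a c : Fin (k + 1)) :
    dot x (fun e => T a c e) = -A a c := by
  rw [← hJ.Tx a c]
  unfold dot
  refine Finset.sum_congr rfl fun e _ => ?_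
  show x e * T a c e = x e * T e a c
  rw [hJ.symT2 a c e, hJ.symT1 a e c]

theorem Jet.Tx2 (hJ : Jet x p A T) (a e : Fin (k + 1)) :
    dot x (fun c => T a c e) = -A a e := by
  rw [← hJ.Tx a e]
  unfold dot
  refine Finset.sum_congr rfl fun c _ => ?_
  show x c * T a c e = x c * T c a e
  rw [hJ.symT1 a c e]

theorem dot_smul_sum_swap {d : ℕ} (y z : Fin d → ℝ) (M : Fin d → Fin d → ℝ) :
    dot y (fun c => dot z (fun e => M c e)) = dot z (fun e => dot y (fun c => M c e)) := by
  unfold dot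
  simp only [Finset.mul_sum]
  rw [Finset.sum_comm]
  exact Finset.sum_congr rfl fun a _ => Finset.sum_congr rfl fun c _ => by ring

theorem Frame.dot_x_S (h : Frame x A b l) (hJ : Jet x p A T) (m : Fin k) (a : Fin (k + 1)) :
    dot x (fun c => dot (b m) (fun e => T a c e)) = -(l m * b m a) := by
  rw [dot_smul_sum_swap x (b m) (fun c e => T a c e)]
  have : ∀ e, dot x (fun c => T a c e) = -A a e := fun e => hJ.Tx2 a e
  simp only [this]
  rw [← h.eig m a]
  unfold dot
  rw [← Finset.sum_neg_distrib]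
  exact Finset.sum_congr rfl fun e _ => by ring

theorem Frame.dot_x_R (h : Frame x A b l) (hJ : Jet x p A T) (m j : Fin k) :
    dot x (fun a => dot (b j) (fun c => dot (b m) (fun e => T a c e))) =
      if j = m then -l m else 0 := by
  rw [dot_smul_sum_swap x (b j) (fun a c => dot (b m) (fun e => T a c e))]
  have h1 : ∀ c, dot x (fun a => dot (b m) (fun e => T a c e)) = -(l m * b m c) := by
    intro c
    rw [← h.dot_x_S hJ m c]
    congr 1
    funext a
    unfold dot
    exact Finset.sum_congr rfl fun e _ => by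
      show b m e * T a c e = b m e * T c a e
      rw [hJ.symT1 a c e]
  simp only [h1]
  have h2 : dot (b j) (fun c => -(l m * b m c)) = -l m * ∑ c, b j c * b m c := by
    unfold dot
    rw [Finset.mul_sum]
    exact Finset.sum_congr rfl fun e _ => by ring
  rw [h2, h.ort j m]
  split_ifs <;> ring

theorem dot_self_sq {d : ℕ} (f : Fin d → ℝ) : dot f f = ∑ i, f i ^ 2 := by
  unfold dot
  exact Finset.sum_congr rfl fun a _ => by ring

theorem Frame.sum_sq (h : Frame x A b l) (f : Fin (k + 1) → ℝ) :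
    ∑ a, f a ^ 2 = dot x f ^ 2 + ∑ i, dot (b i) f ^ 2 := by
  rw [← dot_self_sq, h.parseval f f]
  congr 1
  · ring
  · exact Finset.sum_congr rfl fun a _ => by ring

theorem Frame.jN_eq (h : Frame x A b l) (hJ : Jet x p A T) : jN A = ∑ m, l m ^ 2 := by
  have hd := h.diag hJ.symA hJ.Ax
  have := Diag.contract h hd hd
  unfold jN
  rw [show (∑ m, l m ^ 2) = ∑ m, l m * l m from Finset.sum_congr rfl fun m _ => by ring, ← this]
  exact Finset.sum_congr rfl fun i _ => Finset.sum_congr rfl fun j _ => by ring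

theorem Frame.jC3_eq (h : Frame x A b l) (hJ : Jet x p A T) : jC3 A = ∑ m, l m ^ 3 := by
  have hd := h.diag hJ.symA hJ.Ax
  have := Diag.contract h (Diag.mm h hd) hd
  unfold jC3
  rw [show (∑ m, l m ^ 3) = ∑ m, l m ^ 2 * l m from Finset.sum_congr rfl fun m _ => by ring,
    ← this]
  rfl

theorem Frame.jc4_eq (h : Frame x A b l) (hJ : Jet x p A T) : jc4 A = ∑ m, l m ^ 4 := by
  have hd := h.diag hJ.symA hJ.Ax
  have := Diag.contract h (Diag.mm h hd) (Diag.mm h hd)
  unfold jc4
  rw [show (∑ m, l m ^ 4) = ∑ m, l m ^ 2 * l m ^ 2 from Finset.sum_congr rfl fun m _ => by ring,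
    ← this]
  exact Finset.sum_congr rfl fun i _ => Finset.sum_congr rfl fun j _ => by ring

theorem Frame.sum_l (h : Frame x A b l) (hJ : Jet x p A T) : ∑ m, l m = 0 := by
  have hd := h.diag hJ.symA hJ.Ax
  rw [← hJ.trA]
  have h1 : ∀ i, A i i = ∑ m, l m * (b m i * b m i) := fun i => hd i i
  simp only [h1]
  rw [Finset.sum_comm]
  refine Finset.sum_congr rfl fun m _ => ?_
  rw [← Finset.mul_sum, h.ort m m]
  simp

theorem Frame.dot_jX (h : Frame x A b l) (hJ : Jet x p A T) (i : Fin k) :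
    dot (b i) (jX A T) = ∑ m, l m * tau b T i m m :=
  (h.diag hJ.symA hJ.Ax).contract3 T i

theorem Frame.dot_jX3 (h : Frame x A b l) (hJ : Jet x p A T) (i : Fin k) :
    dot (b i) (jX3 A T) = ∑ m, l m ^ 2 * tau b T i m m :=
  (Diag.mm h (h.diag hJ.symA hJ.Ax)).contract3 T i

theorem dot_x_contr (hJ : Jet x p A T) (B : Fin (k + 1) → Fin (k + 1) → ℝ) :
    dot x (fun a => ∑ j, ∑ m, B j m * T a j m) = -∑ j, ∑ m, B j m * A j m := by
  unfold dot
  simp only [Finset.mul_sum]
  rw [Finset.sum_comm, ← Finset.sum_neg_distrib]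
  refine Finset.sum_congr rfl fun j _ => ?_
  rw [Finset.sum_comm, ← Finset.sum_neg_distrib]
  refine Finset.sum_congr rfl fun m _ => ?_
  have : ∑ a, x a * (B j m * T a j m) = B j m * ∑ a, x a * T a j m := by
    rw [Finset.mul_sum]
    exact Finset.sum_congr rfl fun a _ => by ring
  rw [this, hJ.Tx]
  ring

theorem dot_x_jX (hJ : Jet x p A T) : dot x (jX A T) = -jN A := by
  have := dot_x_contr hJ A
  unfold jN
  rw [show (∑ i, ∑ j, A i j ^ 2) = ∑ i, ∑ j, A i j * A i j from
    Finset.sum_congr rfl fun m _ => Finset.sum_congr rfl fun m _ => by ring, ← this]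
  rfl

theorem dot_x_jX3 (hJ : Jet x p A T) : dot x (jX3 A T) = -jC3 A :=
  dot_x_contr hJ (mm A)

theorem Frame.tau_trace (h : Frame x A b l) (hJ : Jet x p A T) (m : Fin k) :
    ∑ i, tau b T i i m = 0 := by
  have h1 : ∀ i, tau b T i i m =
      ∑ a, ∑ c, (b i a * b i c) * dot (b m) (fun e => T a c e) := by
    intro i
    unfold tau
    unfold dot
    refine Finset.sum_congr rfl fun a _ => ?_
    rw [Finset.mul_sum]
    exact Finset.sum_congr rfl fun c _ => by ring
  simp only [h1]
  rw [Finset.sum_comm]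
  have h2 : ∀ a, ∑ i, ∑ c, (b i a * b i c) * dot (b m) (fun e => T a c e) =
      dot (b m) (fun e => T a a e) - x a * ∑ c, x c * dot (b m) (fun e => T a c e) := by
    intro a
    rw [Finset.sum_comm]
    have h3 : ∀ c, ∑ i, (b i a * b i c) * dot (b m) (fun e => T a c e) =
        (if a = c then 1 else 0) * dot (b m) (fun e => T a c e) -
          x a * (x c * dot (b m) (fun e => T a c e)) := by
      intro c
      rw [← Finset.sum_mul, ← h.comp a c]
      ring
    simp only [h3, Finset.sum_sub_distrib, ← Finset.mul_sum]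
    simp
  simp only [h2, Finset.sum_sub_distrib]
  have h4 : ∑ a, dot (b m) (fun e => T a a e) = 0 := by
    unfold dot
    rw [Finset.sum_comm]
    have : ∀ e, ∑ a, b m e * T a a e = b m e * 0 := by
      intro e
      rw [← hJ.trT e, Finset.mul_sum]
    simp [this]
  have h5 : ∑ a, x a * ∑ c, x c * dot (b m) (fun e => T a c e) = 0 := by
    have h6 : ∀ a, ∑ c, x c * dot (b m) (fun e => T a c e) = -(l m * b m a) :=
      fun a => h.dot_x_S hJ m a
    simp only [h6]
    have : ∑ a, x a * -(l m * b m a) = -l m * ∑ a, x a * b m a := by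
      rw [Finset.mul_sum]
      exact Finset.sum_congr rfl fun a _ => by ring
    rw [this, h.xb, mul_zero]
  rw [h4, h5, sub_zero]

theorem Frame.jT_eq (h : Frame x A b l) (hJ : Jet x p A T) :
    jT T = 3 * ∑ m, l m ^ 2 + ∑ i, ∑ j, ∑ m, tau b T i j m ^ 2 := by
  have e1 : ∀ a c, ∑ e, T a c e ^ 2 = A a c ^ 2 + ∑ m, dot (b m) (fun e => T a c e) ^ 2 := by
    intro a c
    rw [h.sum_sq (fun e => T a c e), hJ.Tx3 a c]
    ring
  have e2 : ∀ a m, ∑ c, dot (b m) (fun e => T a c e) ^ 2 = l m ^ 2 * b m a ^ 2 +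
      ∑ j, dot (b j) (fun c => dot (b m) (fun e => T a c e)) ^ 2 := by
    intro a m
    rw [h.sum_sq (fun c => dot (b m) (fun e => T a c e)), h.dot_x_S hJ m a]
    ring
  have e3 : ∀ m j, ∑ a, dot (b j) (fun c => dot (b m) (fun e => T a c e)) ^ 2 =
      (if j = m then l m ^ 2 else 0) + ∑ i, tau b T i j m ^ 2 := by
    intro m j
    rw [h.sum_sq (fun a => dot (b j) (fun c => dot (b m) (fun e => T a c e))), h.dot_x_R hJ m j]
    congr 1
    split_ifs <;> ring
  have e4 : jT T = jN A + ∑ m, ∑ a, ∑ c, dot (b m) (fun e => T a c e) ^ 2 := by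
    unfold jT jN
    simp only [e1, Finset.sum_add_distrib]
    congr 1
    have : ∀ a : Fin (k + 1), ∑ c, ∑ m, dot (b m) (fun e => T a c e) ^ 2 =
        ∑ m, ∑ c, dot (b m) (fun e => T a c e) ^ 2 := fun a => Finset.sum_comm
    simp only [this]
    rw [Finset.sum_comm]
  have e5 : ∀ m, ∑ a, ∑ c, dot (b m) (fun e => T a c e) ^ 2 =
      2 * l m ^ 2 + ∑ j, ∑ i, tau b T i j m ^ 2 := by
    intro m
    simp only [e2, Finset.sum_add_distrib, ← Finset.mul_sum]
    have e6 : ∑ a, b m a ^ 2 = 1 := by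
      have := h.ort m m
      rw [if_pos rfl] at this
      rw [← this]
      exact Finset.sum_congr rfl fun a _ => by ring
    rw [e6, Finset.sum_comm]
    simp only [e3, Finset.sum_add_distrib]
    simp
    ring
  rw [e4, h.jN_eq hJ]
  simp only [e5, Finset.sum_add_distrib, ← Finset.mul_sum]
  have e7 : ∑ m, ∑ j, ∑ i, tau b T i j m ^ 2 = ∑ i, ∑ j, ∑ m, tau b T i j m ^ 2 := by
    have : ∀ m : Fin k, ∑ j, ∑ i, tau b T i j m ^ 2 = ∑ i, ∑ j, tau b T i j m ^ 2 :=
      fun m => Finset.sum_comm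
    simp only [this]
    rw [Finset.sum_comm]
    exact Finset.sum_congr rfl fun i _ => Finset.sum_comm
  rw [e7]
  ring

/-- only the entries with two equal indices are kept -/
theorem tau_sq_ge {t : Fin k → Fin k → Fin k → ℝ} (h1 : ∀ i j m, t i j m = t j i m)
    (h2 : ∀ i j m, t i j m = t i m j) :
    ∑ i, (3 * ∑ j, t i j j ^ 2 - 2 * t i i i ^ 2) ≤ ∑ i, ∑ j, ∑ m, t i j m ^ 2 := by
  have hp : ∀ i j m, ((if j = m then t i j m ^ 2 else 0) + (if i = m then t i j m ^ 2 else 0) +
      (if i = j then t i j m ^ 2 else 0)) - 2 * (if i = j then (if j = m then t i j m ^ 2 else 0)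
        else 0) ≤ t i j m ^ 2 := by
    intro i j m
    have h0 := sq_nonneg (t i j m)
    by_cases hjm : j = m <;> by_cases him : i = m <;> by_cases hij : i = j
    all_goals simp only [hjm, him, hij, if_true, if_false]
    all_goals first
      | (simp_all; done)
      | (simp_all; linarith)
  have hs : ∑ i, ∑ j, ∑ m, (((if j = m then t i j m ^ 2 else 0) +
      (if i = m then t i j m ^ 2 else 0) + (if i = j then t i j m ^ 2 else 0)) -
      2 * (if i = j then (if j = m then t i j m ^ 2 else 0) else 0)) ≤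
      ∑ i, ∑ j, ∑ m, t i j m ^ 2 :=
    Finset.sum_le_sum fun i _ => Finset.sum_le_sum fun j _ => Finset.sum_le_sum fun m _ =>
      hp i j m
  refine le_trans (le_of_eq ?_) hs
  simp only [Finset.sum_sub_distrib, Finset.sum_add_distrib, ← Finset.mul_sum]
  have g1 : ∑ i, ∑ j, ∑ m, (if j = m then t i j m ^ 2 else 0) = ∑ i, ∑ j, t i j j ^ 2 := by
    simp
  have g2 : ∑ i, ∑ j, ∑ m, (if i = m then t i j m ^ 2 else 0) = ∑ i, ∑ j, t i j j ^ 2 := by
    simp only [Finset.sum_ite_eq, Finset.mem_univ, if_true]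
    rw [Finset.sum_comm]
    refine Finset.sum_congr rfl fun j _ => Finset.sum_congr rfl fun i _ => ?_
    rw [h1 i j i]
  have g3 : ∑ i, ∑ j, ∑ m, (if i = j then t i j m ^ 2 else 0) = ∑ i, ∑ j, t i j j ^ 2 := by
    have : ∀ i j, ∑ m, (if i = j then t i j m ^ 2 else 0) =
        if i = j then ∑ m, t i j m ^ 2 else 0 := by
      intro i j
      split_ifs <;> simp
    simp only [this, Finset.sum_ite_eq, Finset.mem_univ, if_true]
    rw [Finset.sum_comm]
    refine Finset.sum_congr rfl fun m _ => Finset.sum_congr rfl fun i _ => ?_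
    rw [h2 i i m, h1 i m i]
  have g4 : ∑ i, ∑ j, ∑ m, (if i = j then (if j = m then t i j m ^ 2 else 0) else 0) =
      ∑ i, t i i i ^ 2 := by
    have : ∀ i j, ∑ m, (if i = j then (if j = m then t i j m ^ 2 else 0) else 0) =
        if i = j then t i j j ^ 2 else 0 := by
      intro i j
      split_ifs <;> simp
    simp only [this, Finset.sum_ite_eq, Finset.mem_univ, if_true]
  rw [g1, g2, g3, g4]
  ring

end Vale.Agent.P098
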