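import Vale.Agent.Lib.P098.Bld.KGrad

/-!
# P098: the divergence of a field of class K in an eigenframe
-/

namespace Vale.Agent.P098

variable {k : ℕ} {x p : Fin (k + 1) → ℝ} {A : Fin (k + 1) → Fin (k + 1) → ℝ}
  {T : Fin (k + 1) → Fin (k + 1) → Fin (k + 1) → ℝ}
  {b : Fin k → Fin (k + 1) → ℝ} {l : Fin k → ℝ}

/-- the part of the divergence which comes from the `i`-th direction, without the square of `T` -/
noncomputable def KCert.Fi (K : KCert) (a s z c x X V r : ℝ) : ℝ :=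
  K.G.gc (a - 1) s z c x r X V * X + K.F0.gc (a + 1 / 2) s z c x r X V * r +
  K.F1.gc a s z c x r X V * (x * r) + K.F2.gc (a - 1 / 2) s z c x r X V * (x ^ 2 * r) +
  K.F3.gc (a - 1) s z c x r X V * (x ^ 3 * r) + K.F2.f s z c * (X * r) +
  K.F3.f s z c * (X * (x * r) + V * r)

theorem KCert.form_eq (K : KCert) (a s z c x T2 X V y r : ℝ) :
    K.form a s z c x T2 X V y r = K.G.f s z c * T2 + K.Fi a s z c x X V r -
      y * K.e.gc a s z c x r X V + K.e.f s z c * y ^ 2 := by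
  unfold KCert.form KCert.Fi KF.gc KCert.cXX KCert.cX KCert.cV KCert.cr
  ring

theorem term_zero (K : ℝ) (F : Fin (k + 1) → ℝ) (w : ℝ) :
    dot (Co.zero.grad K x p A T) F + Co.zero.f (jV x p A) * w = 0 := by
  rw [grad_zero]
  unfold dot Co.zero
  simp

theorem Frame.div_eq (h : Frame x A b l) (hJ : Jet x p A T) (K : KCert) (a : ℝ) {m : ℝ}
    (hm : 0 < m) (hN : jN A = m ^ 2) :
    let s := dot p p
    let z := dot x p * m
    let c := jC3 A / m ^ 3
    let D := jc4 A / m ^ 4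
    (K.toCS a).div (((k : ℝ) - 1) / 2) x p A T = jN A ^ a * (m ^ 2 * (
      ∑ i, K.Fi a s z c (l i / m) (dot (b i) (jX A T) / m ^ 3) (dot (b i) (jX3 A T) / m ^ 4)
        (dot (b i) p) + K.G.f s z c * ((jT T - 3 * m ^ 2) / m ^ 4) + K.C0 s z c D) +
      k * K.G.f s z c - z * (k * K.F0.f s z c + K.F2.f s z c + c * K.F3.f s z c)) := by
  intro s z c D
  have hm2 : m ≠ 0 := hm.ne'
  obtain ⟨r1, r2, r3, r5, ra⟩ := rpow_facts hm hN
  obtain ⟨ra1, ra2, ra3⟩ := ra a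
  unfold CS.div
  rw [Fin.sum_univ_succ, Fin.sum_univ_eight]
  have t5 : dot (((K.toCS a).c (Fin.succ (4 : Fin 8))).grad
      (-1 - 2 * (((k : ℝ) - 1) / 2) - deg9 (Fin.succ (4 : Fin 8))) x p A T)
      (jF p A T (Fin.succ (4 : Fin 8))) + ((K.toCS a).c (Fin.succ (4 : Fin 8))).f (jV x p A) *
      jD p A T (Fin.succ (4 : Fin 8)) = 0 := term_zero _ _ _
  have t6 : dot (((K.toCS a).c (Fin.succ (5 : Fin 8))).grad
      (-1 - 2 * (((k : ℝ) - 1) / 2) - deg9 (Fin.succ (5 : Fin 8))) x p A T)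
      (jF p A T (Fin.succ (5 : Fin 8))) + ((K.toCS a).c (Fin.succ (5 : Fin 8))).f (jV x p A) *
      jD p A T (Fin.succ (5 : Fin 8)) = 0 := term_zero _ _ _
  have t7 : dot (((K.toCS a).c (Fin.succ (6 : Fin 8))).grad
      (-1 - 2 * (((k : ℝ) - 1) / 2) - deg9 (Fin.succ (6 : Fin 8))) x p A T)
      (jF p A T (Fin.succ (6 : Fin 8))) + ((K.toCS a).c (Fin.succ (6 : Fin 8))).f (jV x p A) *
      jD p A T (Fin.succ (6 : Fin 8)) = 0 := term_zero _ _ _
  have t8 : dot (((K.toCS a).c (Fin.succ (7 : Fin 8))).grad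
      (-1 - 2 * (((k : ℝ) - 1) / 2) - deg9 (Fin.succ (7 : Fin 8))) x p A T)
      (jF p A T (Fin.succ (7 : Fin 8))) + ((K.toCS a).c (Fin.succ (7 : Fin 8))).f (jV x p A) *
      jD p A T (Fin.succ (7 : Fin 8)) = 0 := term_zero _ _ _
  rw [t5, t6, t7, t8]
  -- the five relevant terms
  have t0 : dot (((K.toCS a).c 0).grad (-1 - 2 * (((k : ℝ) - 1) / 2) - deg9 0) x p A T)
      (jF p A T 0) + ((K.toCS a).c 0).f (jV x p A) * jD p A T 0 =
      dot ((K.G.toCo (a - 1)).grad (-1 - 2 * (((k : ℝ) - 1) / 2) - ((-3 : ℤ) : ℝ)) x p A T)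
        (jX A T) + (K.G.toCo (a - 1)).f (jV x p A) * jT T := rfl
  have t1 : dot (((K.toCS a).c (Fin.succ (0 : Fin 8))).grad
      (-1 - 2 * (((k : ℝ) - 1) / 2) - deg9 (Fin.succ (0 : Fin 8))) x p A T)
      (jF p A T (Fin.succ (0 : Fin 8))) + ((K.toCS a).c (Fin.succ (0 : Fin 8))).f (jV x p A) *
      jD p A T (Fin.succ (0 : Fin 8)) =
      dot ((K.F0.toCo (a + 1 / 2)).grad (-1 - 2 * (((k : ℝ) - 1) / 2) - ((0 : ℤ) : ℝ)) x p A T)
        p + (K.F0.toCo (a + 1 / 2)).f (jV x p A) * 0 := rfl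
  have t2 : dot (((K.toCS a).c (Fin.succ (1 : Fin 8))).grad
      (-1 - 2 * (((k : ℝ) - 1) / 2) - deg9 (Fin.succ (1 : Fin 8))) x p A T)
      (jF p A T (Fin.succ (1 : Fin 8))) + ((K.toCS a).c (Fin.succ (1 : Fin 8))).f (jV x p A) *
      jD p A T (Fin.succ (1 : Fin 8)) =
      dot ((K.F1.toCo a).grad (-1 - 2 * (((k : ℝ) - 1) / 2) - ((-1 : ℤ) : ℝ)) x p A T)
        (mv A p) + (K.F1.toCo a).f (jV x p A) * jN A := rfl
  have t3 : dot (((K.toCS a).c (Fin.succ (2 : Fin 8))).grad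
      (-1 - 2 * (((k : ℝ) - 1) / 2) - deg9 (Fin.succ (2 : Fin 8))) x p A T)
      (jF p A T (Fin.succ (2 : Fin 8))) + ((K.toCS a).c (Fin.succ (2 : Fin 8))).f (jV x p A) *
      jD p A T (Fin.succ (2 : Fin 8)) =
      dot ((K.F2.toCo (a - 1 / 2)).grad (-1 - 2 * (((k : ℝ) - 1) / 2) - ((-2 : ℤ) : ℝ)) x p A T)
        (mv A (mv A p)) + (K.F2.toCo (a - 1 / 2)).f (jV x p A) *
        (dot (jX A T) p + jC3 A) := rfl
  have t4 : dot (((K.toCS a).c (Fin.succ (3 : Fin 8))).grad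
      (-1 - 2 * (((k : ℝ) - 1) / 2) - deg9 (Fin.succ (3 : Fin 8))) x p A T)
      (jF p A T (Fin.succ (3 : Fin 8))) + ((K.toCS a).c (Fin.succ (3 : Fin 8))).f (jV x p A) *
      jD p A T (Fin.succ (3 : Fin 8)) =
      dot ((K.F3.toCo (a - 1)).grad (-1 - 2 * (((k : ℝ) - 1) / 2) - ((-3 : ℤ) : ℝ)) x p A T)
        (mv A (mv A (mv A p))) + (K.F3.toCo (a - 1)).f (jV x p A) *
        (dot (jX A T) (mv A p) + dot (jX3 A T) p + jc4 A) := rfl
  rw [t0, t1, t2, t3, t4]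
  have hc3 : jC3 A = m ^ 3 * c := by
    simp only [c]
    field_simp
  have hD : jc4 A = m ^ 4 * D := by
    simp only [D]
    field_simp
  have hz : z = dot x p * m := rfl
  have hX : ∀ i, dot (b i) (jX A T) = m ^ 3 * (dot (b i) (jX A T) / m ^ 3) := by
    intro i
    field_simp
  have hV : ∀ i, dot (b i) (jX3 A T) = m ^ 4 * (dot (b i) (jX3 A T) / m ^ 4) := by
    intro i
    field_simp
  have hL : ∀ i, l i = m * (l i / m) := by
    intro i
    field_simp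
  -- Parseval
  rw [h.parseval (KF.toCo K.G (a - 1) |>.grad _ x p A T) (jX A T),
    h.parseval (KF.toCo K.F0 (a + 1 / 2) |>.grad _ x p A T) p,
    h.parseval (KF.toCo K.F1 a |>.grad _ x p A T) (mv A p),
    h.parseval (KF.toCo K.F2 (a - 1 / 2) |>.grad _ x p A T) (mv A (mv A p)),
    h.parseval (KF.toCo K.F3 (a - 1) |>.grad _ x p A T) (mv A (mv A (mv A p))),
    h.parseval (jX A T) p, h.parseval (jX A T) (mv A p), h.parseval (jX3 A T) p]
  simp only [hJ.dot_x_grad, dot_x_mv hJ.Ax, dot_x_jX hJ, dot_x_jX3 hJ, h.dot_mv hJ.symA,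
    h.dot_grad hJ _ _ _ hm hN]
  rw [(toCo_vals (x := x) (p := p) (A := A) K.G (a - 1) hm hN).1,
    (toCo_vals (x := x) (p := p) (A := A) K.F0 (a + 1 / 2) hm hN).1,
    (toCo_vals (x := x) (p := p) (A := A) K.F1 a hm hN).1,
    (toCo_vals (x := x) (p := p) (A := A) K.F2 (a - 1 / 2) hm hN).1,
    (toCo_vals (x := x) (p := p) (A := A) K.F3 (a - 1) hm hN).1, ra1, ra2, ra3]
  have hsum : ∀ (w : ℝ) (f : Fin k → ℝ), ∑ i, w * f i = w * ∑ i, f i := fun w f =>
    (Finset.mul_sum _ _ _).symm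
  set P := jN A ^ a with hP
  set q : Fin k → ℝ := fun i => dot (b i) p with hq
  set X : Fin k → ℝ := fun i => dot (b i) (jX A T) / m ^ 3 with hXd
  set V : Fin k → ℝ := fun i => dot (b i) (jX3 A T) / m ^ 4 with hVd
  set L : Fin k → ℝ := fun i => l i / m with hLd
  have s0 : ∑ i, P / m ^ 2 * m * K.G.gc (a - 1) s z c (L i) (q i) (X i) (V i) *
      dot (b i) (jX A T) = P * m ^ 2 * ∑ i, K.G.gc (a - 1) s z c (L i) (q i) (X i) (V i) *
        X i := by
    rw [Finset.mul_sum]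
    refine Finset.sum_congr rfl fun i _ => ?_
    rw [hX i]
    simp only [hXd]
    field_simp
  have s1 : ∑ i, P * m * m * K.F0.gc (a + 1 / 2) s z c (L i) (q i) (X i) (V i) * q i =
      P * m ^ 2 * ∑ i, K.F0.gc (a + 1 / 2) s z c (L i) (q i) (X i) (V i) * q i := by
    rw [Finset.mul_sum]
    exact Finset.sum_congr rfl fun i _ => by ring
  have s2 : ∑ i, P * m * K.F1.gc a s z c (L i) (q i) (X i) (V i) * (l i * q i) =
      P * m ^ 2 * ∑ i, K.F1.gc a s z c (L i) (q i) (X i) (V i) * (L i * q i) := by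
    rw [Finset.mul_sum]
    refine Finset.sum_congr rfl fun i _ => ?_
    rw [show l i = m * L i from hL i]
    ring
  have s3 : ∑ i, P / m * m * K.F2.gc (a - 1 / 2) s z c (L i) (q i) (X i) (V i) *
      (l i * (l i * q i)) =
      P * m ^ 2 * ∑ i, K.F2.gc (a - 1 / 2) s z c (L i) (q i) (X i) (V i) *
        (L i ^ 2 * q i) := by
    rw [Finset.mul_sum]
    refine Finset.sum_congr rfl fun i _ => ?_
    rw [show l i = m * L i from hL i]
    field_simp
  have s4 : ∑ i, P / m ^ 2 * m * K.F3.gc (a - 1) s z c (L i) (q i) (X i) (V i) *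
      (l i * (l i * (l i * q i))) =
      P * m ^ 2 * ∑ i, K.F3.gc (a - 1) s z c (L i) (q i) (X i) (V i) *
        (L i ^ 3 * q i) := by
    rw [Finset.mul_sum]
    refine Finset.sum_congr rfl fun i _ => ?_
    rw [show l i = m * L i from hL i]
    field_simp
  have s5 : ∑ i, dot (b i) (jX A T) * q i = m ^ 3 * ∑ i, X i * q i := by
    rw [Finset.mul_sum]
    refine Finset.sum_congr rfl fun i _ => ?_
    rw [hX i]
    ring
  have s6 : ∑ i, dot (b i) (jX A T) * (l i * q i) = m ^ 4 * ∑ i, X i * (L i * q i) := by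
    rw [Finset.mul_sum]
    refine Finset.sum_congr rfl fun i _ => ?_
    rw [hX i, show l i = m * L i from hL i]
    ring
  have s7 : ∑ i, dot (b i) (jX3 A T) * q i = m ^ 4 * ∑ i, V i * q i := by
    rw [Finset.mul_sum]
    refine Finset.sum_congr rfl fun i _ => ?_
    rw [hV i]
    ring
  have s8 : ∑ i, K.Fi a s z c (L i) (X i) (V i) (q i) =
      (∑ i, K.G.gc (a - 1) s z c (L i) (q i) (X i) (V i) * X i) +
      (∑ i, K.F0.gc (a + 1 / 2) s z c (L i) (q i) (X i) (V i) * q i) +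
      (∑ i, K.F1.gc a s z c (L i) (q i) (X i) (V i) * (L i * q i)) +
      (∑ i, K.F2.gc (a - 1 / 2) s z c (L i) (q i) (X i) (V i) * (L i ^ 2 * q i)) +
      (∑ i, K.F3.gc (a - 1) s z c (L i) (q i) (X i) (V i) * (L i ^ 3 * q i)) +
      K.F2.f s z c * (∑ i, X i * q i) +
      K.F3.f s z c * ((∑ i, X i * (L i * q i)) + ∑ i, V i * q i) := by
    simp only [Finset.mul_sum, mul_add, ← Finset.sum_add_distrib]
    refine Finset.sum_congr rfl fun i _ => ?_
    unfold KCert.Fi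
    ring
  rw [s8, s0, s1, s2, s3, s4, s5, s6, s7, hc3, hD, hN]
  unfold KCert.C0
  rw [hz]
  push_cast
  field_simp
  ring

end Vale.Agent.P098
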