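import Vale.Agent.Lib.P098.Var.CDef

/-!
# P098: certificates of class K

Coefficients are powers of `N` times functions of `s = |p|²`, `z = u √N`, `c = tr A³ / N^{3/2}`.
All hypotheses are stated at `|Λ| = 1`, for the eigenvalues `l` of `Λ`.
-/

open scoped ContDiff

namespace Vale.Agent.P098

/-- a function of `(s, z, c)` with its partial derivatives -/
structure KF where
  f : ℝ → ℝ → ℝ → ℝ
  fs : ℝ → ℝ → ℝ → ℝ
  fz : ℝ → ℝ → ℝ → ℝ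
  fc : ℝ → ℝ → ℝ → ℝ

/-- smoothness and correctness of the derivatives -/
structure KF.Good (H : KF) : Prop where
  smooth : ContDiff ℝ ∞ (fun w : Fin 3 → ℝ => H.f (w 0) (w 1) (w 2))
  hs : ∀ s z c, HasDerivAt (fun t => H.f t z c) (H.fs s z c) s
  hz : ∀ s z c, HasDerivAt (fun t => H.f s t c) (H.fz s z c) z
  hc : ∀ s z c, HasDerivAt (fun t => H.f s z t) (H.fc s z c) c

/-- `z = u √N` -/
noncomputable def kz (v : Fin 7 → ℝ) : ℝ := v 0 * v 2 ^ (1 / 2 : ℝ)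

/-- `c = c₃ / N^{3/2}` -/
noncomputable def kc (v : Fin 7 → ℝ) : ℝ := v 3 * v 2 ^ (-(3 / 2) : ℝ)

/-- the coefficient function `N^a H(s, z, c)` -/
noncomputable def KF.toCo (H : KF) (a : ℝ) : Co where
  f := fun v => v 2 ^ a * H.f (v 1) (kz v) (kc v)
  D := ![fun v => v 2 ^ a * (H.fz (v 1) (kz v) (kc v) * v 2 ^ (1 / 2 : ℝ)),
    fun v => v 2 ^ a * H.fs (v 1) (kz v) (kc v),
    fun v => a * v 2 ^ (a - 1) * H.f (v 1) (kz v) (kc v) +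
      v 2 ^ a * (H.fz (v 1) (kz v) (kc v) * (v 0 * (1 / 2 * v 2 ^ (-(1 / 2) : ℝ))) +
        H.fc (v 1) (kz v) (kc v) * (v 3 * (-(3 / 2) * v 2 ^ (-(5 / 2) : ℝ)))),
    fun v => v 2 ^ a * (H.fc (v 1) (kz v) (kc v) * v 2 ^ (-(3 / 2) : ℝ)),
    fun _ => 0, fun _ => 0, fun _ => 0]

/-- the zero coefficient -/
def Co.zero : Co where
  f := fun _ => 0
  D := fun _ _ => 0

/-- the data of a certificate of class K -/
structure KCert where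
  e : KF
  G : KF
  F0 : KF
  F1 : KF
  F2 : KF
  F3 : KF

/-- all functions are good -/
structure KCert.Good (K : KCert) : Prop where
  e : K.e.Good
  G : K.G.Good
  F0 : K.F0.Good
  F1 : K.F1.Good
  F2 : K.F2.Good
  F3 : K.F3.Good

/-- the coefficient system, `a` is the exponent of `N` in `E` -/
noncomputable def KCert.toCS (K : KCert) (a : ℝ) : CS where
  φ := K.e.toCo a
  c := ![K.G.toCo (a - 1), K.F0.toCo (a + 1 / 2), K.F1.toCo a, K.F2.toCo (a - 1 / 2),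
    K.F3.toCo (a - 1), Co.zero, Co.zero, Co.zero, Co.zero]

/-- `C₀ = F₁ + c F₂ + D F₃` -/
def KCert.C0 (K : KCert) (s z c D : ℝ) : ℝ :=
  K.F1.f s z c + c * K.F2.f s z c + D * K.F3.f s z c

/-- coefficient of `X²` -/
def KCert.cXX (K : KCert) (a s z c : ℝ) : ℝ :=
  2 * (a - 1) * K.G.f s z c + z * K.G.fz s z c - 3 * c * K.G.fc s z c

/-- coefficient of `r X` -/
def KCert.cX (K : KCert) (a s z c x : ℝ) : ℝ :=
  2 * x * K.G.fs s z c + K.G.fz s z c +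
  ((2 * a + 1) * K.F0.f s z c + z * K.F0.fz s z c - 3 * c * K.F0.fc s z c) +
  x * (2 * a * K.F1.f s z c + z * K.F1.fz s z c - 3 * c * K.F1.fc s z c) + K.F2.f s z c +
  x ^ 2 * ((2 * a - 1) * K.F2.f s z c + z * K.F2.fz s z c - 3 * c * K.F2.fc s z c) +
  x * K.F3.f s z c +
  x ^ 3 * ((2 * a - 2) * K.F3.f s z c + z * K.F3.fz s z c - 3 * c * K.F3.fc s z c)

/-- coefficient of `r V` -/
def KCert.cV (K : KCert) (s z c x : ℝ) : ℝ :=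
  3 * K.F0.fc s z c + 3 * x * K.F1.fc s z c + 3 * x ^ 2 * K.F2.fc s z c +
  3 * x ^ 3 * K.F3.fc s z c + K.F3.f s z c

/-- coefficient of `r²` -/
def KCert.cr (K : KCert) (s z c x : ℝ) : ℝ :=
  2 * x * K.F0.fs s z c + K.F0.fz s z c + x * (2 * x * K.F1.fs s z c + K.F1.fz s z c) +
  x ^ 2 * (2 * x * K.F2.fs s z c + K.F2.fz s z c) +
  x ^ 3 * (2 * x * K.F3.fs s z c + K.F3.fz s z c)

/-- the quadratic form in `(t, y, r)`; `T2 = 3 Σ t_j² - 2 t_i²`, `X = Σ l_j t_j`,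
`V = Σ l_j² t_j`, `x = l_i` -/
def KCert.form (K : KCert) (a s z c x T2 X V y r : ℝ) : ℝ :=
  K.G.f s z c * T2 + K.cXX a s z c * X ^ 2 + 3 * K.G.fc s z c * (V * X) +
  r * (X * K.cX a s z c x) + r * (V * K.cV s z c x) + r ^ 2 * K.cr s z c x -
  y * X * (2 * a * K.e.f s z c + z * K.e.fz s z c - 3 * c * K.e.fc s z c) -
  3 * K.e.fc s z c * (y * V) - y * r * (2 * x * K.e.fs s z c + K.e.fz s z c) +
  K.e.f s z c * y ^ 2

/-- the hypotheses on a certificate of class K; `k = d - 1`, `κ` is the constant in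
`s + κ z² ≤ 1` -/
structure KCert.Hyp (K : KCert) (k : ℕ) (a γ κ : ℝ) : Prop where
  a_lo : 1 / 2 < a
  /-- the flat inequality -/
  flat : ∀ l : Fin k → ℝ, ∑ i, l i = 0 → ∑ i, l i ^ 2 = 1 → ∀ s z : ℝ, 0 < s → 0 ≤ z →
    s + κ * z ^ 2 ≤ 1 → ∀ (i : Fin k) (t : Fin k → ℝ), ∑ j, t j = 0 → ∀ y r : ℝ,
    0 ≤ s * K.form a s z (∑ j, l j ^ 3) (l i) (3 * ∑ j, t j ^ 2 - 2 * t i ^ 2)
      (∑ j, l j * t j) (∑ j, l j ^ 2 * t j) y r +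
      K.C0 s z (∑ j, l j ^ 3) (∑ j, l j ^ 4) * r ^ 2
  /-- the curvature inequality -/
  curv : ∀ l : Fin k → ℝ, ∑ i, l i = 0 → ∑ i, l i ^ 2 = 1 → ∀ s z : ℝ, 0 < s → 0 ≤ z →
    s + κ * z ^ 2 ≤ 1 →
    0 ≤ z ^ 2 * K.C0 s z (∑ j, l j ^ 3) (∑ j, l j ^ 4) +
      s * (k * K.G.f s z (∑ j, l j ^ 3) - (((k : ℝ) - 1) ^ 2 / 4 + γ) * K.e.f s z (∑ j, l j ^ 3) -
        z * (k * K.F0.f s z (∑ j, l j ^ 3) + K.F2.f s z (∑ j, l j ^ 3) +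
          (∑ j, l j ^ 3) * K.F3.f s z (∑ j, l j ^ 3)))
  /-- the boundary inequality -/
  bdry : ∀ l : Fin k → ℝ, ∑ i, l i = 0 → ∑ i, l i ^ 2 = 1 → ∀ i : Fin k, l i ≤ 0 →
    l i * K.e.f 1 0 (∑ j, l j ^ 3) ≤ K.G.f 1 0 (∑ j, l j ^ 3) * (2 * l i - ∑ j, l j ^ 3) +
      K.F0.f 1 0 (∑ j, l j ^ 3) + K.F1.f 1 0 (∑ j, l j ^ 3) * l i +
      K.F2.f 1 0 (∑ j, l j ^ 3) * l i ^ 2 + K.F3.f 1 0 (∑ j, l j ^ 3) * l i ^ 3
  /-- positivity -/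
  pos : ∃ e0 : ℝ, 0 < e0 ∧ ∀ l : Fin k → ℝ, ∑ i, l i = 0 → ∑ i, l i ^ 2 = 1 → ∀ s z : ℝ, 0 ≤ s →
    0 ≤ z → s + κ * z ^ 2 ≤ 1 →
    e0 ≤ K.e.f s z (∑ j, l j ^ 3) ∧ 0 ≤ K.G.f s z (∑ j, l j ^ 3)

end Vale.Agent.P098
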