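import Vale.Agent.Lib.P098.Bld.FrameT
import Vale.Agent.Lib.P098.Bld.KF

/-!
# P098: gradients of the coefficients of class K in an eigenframe
-/

namespace Vale.Agent.P098

variable {k : ℕ} {x p : Fin (k + 1) → ℝ} {A : Fin (k + 1) → Fin (k + 1) → ℝ}
  {T : Fin (k + 1) → Fin (k + 1) → Fin (k + 1) → ℝ}
  {b : Fin k → Fin (k + 1) → ℝ} {l : Fin k → ℝ}

theorem dot_lin5 {d : ℕ} (y f1 f2 f3 f4 f5 : Fin d → ℝ) (a1 a2 a3 a4 a5 : ℝ) :
    dot y (fun i => a1 * f1 i + a2 * (2 * f2 i) + a3 * (2 * f3 i) + a4 * (3 * f4 i) + a5 * f5 i) =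
      a1 * dot y f1 + 2 * a2 * dot y f2 + 2 * a3 * dot y f3 + 3 * a4 * dot y f4 +
        a5 * dot y f5 := by
  unfold dot
  simp only [Finset.mul_sum, ← Finset.sum_add_distrib]
  exact Finset.sum_congr rfl fun i _ => by ring

theorem grad_toCo (H : KF) (a K : ℝ) (x p : Fin (k + 1) → ℝ)
    (A : Fin (k + 1) → Fin (k + 1) → ℝ) (T : Fin (k + 1) → Fin (k + 1) → Fin (k + 1) → ℝ) :
    (H.toCo a).grad K x p A T = fun i =>
      (H.toCo a).D 0 (jV x p A) * p i + (H.toCo a).D 1 (jV x p A) * (2 * mv A p i) +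
      (H.toCo a).D 2 (jV x p A) * (2 * jX A T i) + (H.toCo a).D 3 (jV x p A) * (3 * jX3 A T i) +
      (K * (H.toCo a).f (jV x p A) - (dot x p * (H.toCo a).D 0 (jV x p A) -
        2 * jN A * (H.toCo a).D 2 (jV x p A) - 3 * jC3 A * (H.toCo a).D 3 (jV x p A))) * x i := by
  have h4 : (H.toCo a).D 4 (jV x p A) = 0 := rfl
  have h5 : (H.toCo a).D 5 (jV x p A) = 0 := rfl
  have h6 : (H.toCo a).D 6 (jV x p A) = 0 := rfl
  funext i
  unfold Co.grad
  rw [Fin.sum_univ_seven, Fin.sum_univ_seven, h4, h5, h6]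
  simp only [jG, jV, del7, Matrix.cons_val_zero, Matrix.cons_val_one, Matrix.cons_val]
  push_cast
  ring

theorem grad_zero (K : ℝ) (x p : Fin (k + 1) → ℝ)
    (A : Fin (k + 1) → Fin (k + 1) → ℝ) (T : Fin (k + 1) → Fin (k + 1) → Fin (k + 1) → ℝ) :
    Co.zero.grad K x p A T = fun _ => 0 := by
  funext i
  unfold Co.grad Co.zero
  simp

/-- powers of `N = m²` -/
theorem rpow_facts {N m : ℝ} (hm : 0 < m) (hN : N = m ^ 2) :
    N ^ (1 / 2 : ℝ) = m ∧ N ^ (-(1 / 2) : ℝ) = 1 / m ∧ N ^ (-(3 / 2) : ℝ) = 1 / m ^ 3 ∧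
      N ^ (-(5 / 2) : ℝ) = 1 / m ^ 5 ∧ ∀ a : ℝ, N ^ (a - 1) = N ^ a / m ^ 2 ∧
        N ^ (a + 1 / 2) = N ^ a * m ∧ N ^ (a - 1 / 2) = N ^ a / m := by
  have hNp : 0 < N := by rw [hN]; positivity
  have h1 : N ^ (1 / 2 : ℝ) = m := by
    rw [← Real.sqrt_eq_rpow, hN, Real.sqrt_sq hm.le]
  have h2 : N ^ (-(1 / 2) : ℝ) = 1 / m := by
    rw [Real.rpow_neg hNp.le, h1, one_div]
  refine ⟨h1, h2, ?_, ?_, fun a => ⟨?_, ?_, ?_⟩⟩
  · have : (-(3 / 2) : ℝ) = -(1 / 2) - 1 := by norm_num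
    rw [this, Real.rpow_sub_one hNp.ne', h2, hN]
    field_simp
  · have : (-(5 / 2) : ℝ) = -(1 / 2) - 1 - 1 := by norm_num
    rw [this, Real.rpow_sub_one hNp.ne', Real.rpow_sub_one hNp.ne', h2, hN]
    field_simp
  · rw [Real.rpow_sub_one hNp.ne', hN]
  · rw [Real.rpow_add hNp, h1]
  · rw [Real.rpow_sub hNp, h1]

/-- the values of a coefficient of class K and of its derivatives -/
theorem toCo_vals (H : KF) (a : ℝ) {m : ℝ} (hm : 0 < m) (hN : jN A = m ^ 2) :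
    let s := dot p p
    let z := dot x p * m
    let c := jC3 A / m ^ 3
    let R := jN A ^ a
    (H.toCo a).f (jV x p A) = R * H.f s z c ∧
    (H.toCo a).D 0 (jV x p A) = R * m * H.fz s z c ∧
    (H.toCo a).D 1 (jV x p A) = R * H.fs s z c ∧
    (H.toCo a).D 2 (jV x p A) = R / m ^ 2 * (a * H.f s z c + z / 2 * H.fz s z c -
      3 / 2 * c * H.fc s z c) ∧
    (H.toCo a).D 3 (jV x p A) = R / m ^ 3 * H.fc s z c := by
  intro s z c R
  obtain ⟨r1, r2, r3, r5, ra⟩ := rpow_facts hm hN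
  have hz : kz (jV x p A) = z := by
    show dot x p * jN A ^ (1 / 2 : ℝ) = dot x p * m
    rw [r1]
  have hc : kc (jV x p A) = c := by
    show jC3 A * jN A ^ (-(3 / 2) : ℝ) = jC3 A / m ^ 3
    rw [r3]
    ring
  refine ⟨?_, ?_, ?_, ?_, ?_⟩
  · show jN A ^ a * H.f (dot p p) (kz (jV x p A)) (kc (jV x p A)) = _
    rw [hz, hc]
  · show jN A ^ a * (H.fz (dot p p) (kz (jV x p A)) (kc (jV x p A)) * jN A ^ (1 / 2 : ℝ)) = _
    rw [hz, hc, r1]
    ring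
  · show jN A ^ a * H.fs (dot p p) (kz (jV x p A)) (kc (jV x p A)) = _
    rw [hz, hc]
  · show a * jN A ^ (a - 1) * H.f (dot p p) (kz (jV x p A)) (kc (jV x p A)) +
      jN A ^ a * (H.fz (dot p p) (kz (jV x p A)) (kc (jV x p A)) *
        (dot x p * (1 / 2 * jN A ^ (-(1 / 2) : ℝ))) +
        H.fc (dot p p) (kz (jV x p A)) (kc (jV x p A)) *
        (jC3 A * (-(3 / 2) * jN A ^ (-(5 / 2) : ℝ)))) = _
    rw [hz, hc, r2, r5, (ra a).1]
    simp only [s, z, c, R]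
    field_simp
    ring
  · show jN A ^ a * (H.fc (dot p p) (kz (jV x p A)) (kc (jV x p A)) *
      jN A ^ (-(3 / 2) : ℝ)) = _
    rw [hz, hc, r3]
    simp only [s, z, c, R]
    field_simp

/-- the part of a coefficient gradient in the direction of the `i`-th eigenvector, at `|Λ| = 1` -/
def KF.gc (H : KF) (a s z c x q X V : ℝ) : ℝ :=
  (H.fz s z c + 2 * x * H.fs s z c) * q + (2 * a * H.f s z c + z * H.fz s z c -
    3 * c * H.fc s z c) * X + 3 * H.fc s z c * V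

theorem Frame.dot_grad (h : Frame x A b l) (hJ : Jet x p A T) (H : KF) (a K : ℝ) {m : ℝ}
    (hm : 0 < m) (hN : jN A = m ^ 2) (i : Fin k) :
    dot (b i) ((H.toCo a).grad K x p A T) = jN A ^ a * m *
      H.gc a (dot p p) (dot x p * m) (jC3 A / m ^ 3) (l i / m) (dot (b i) p)
        (dot (b i) (jX A T) / m ^ 3) (dot (b i) (jX3 A T) / m ^ 4) := by
  obtain ⟨v0, v1, v2, v3, v4⟩ := toCo_vals (x := x) (p := p) (A := A) H a hm hN
  rw [grad_toCo, dot_lin5, v0, v1, v2, v3, v4, h.dot_mv hJ.symA]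
  have hx : dot (b i) x = 0 := by
    rw [dot_comm']
    exact h.xb i
  rw [hx]
  unfold KF.gc
  field_simp
  ring

theorem Jet.dot_x_grad (hJ : Jet x p A T) (H : KF) (a K : ℝ) :
    dot x ((H.toCo a).grad K x p A T) = K * (H.toCo a).f (jV x p A) := by
  rw [grad_toCo, dot_lin5, dot_x_mv hJ.Ax, dot_x_jX hJ, dot_x_jX3 hJ]
  have hx : dot x x = 1 := by
    rw [dot_self_sq]
    exact hJ.unit
  rw [hx]
  ring

end Vale.Agent.P098
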