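import Vale.Agent.Lib.P098.Bld.KDiv

/-!
# P098: the interior inequality for certificates of class K
-/

namespace Vale.Agent.P098

variable {k : ℕ} {x p : Fin (k + 1) → ℝ} {A : Fin (k + 1) → Fin (k + 1) → ℝ}
  {T : Fin (k + 1) → Fin (k + 1) → Fin (k + 1) → ℝ}
  {b : Fin k → Fin (k + 1) → ℝ} {l : Fin k → ℝ}

theorem Frame.gr_eq (h : Frame x A b l) (hJ : Jet x p A T) (K : KCert) (a α : ℝ) {m : ℝ}
    (hm : 0 < m) (hN : jN A = m ^ 2) :
    (K.toCS a).gr α x p A T = (2 * α * (jN A ^ a * K.e.f (dot p p) (dot x p * m)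
      (jC3 A / m ^ 3))) ^ 2 + ∑ i, (jN A ^ a * m *
      K.e.gc a (dot p p) (dot x p * m) (jC3 A / m ^ 3) (l i / m) (dot (b i) p)
        (dot (b i) (jX A T) / m ^ 3) (dot (b i) (jX3 A T) / m ^ 4)) ^ 2 := by
  unfold CS.gr
  rw [h.sum_sq]
  have h1 : (K.toCS a).φ = K.e.toCo a := rfl
  rw [h1, hJ.dot_x_grad, (toCo_vals (x := x) (p := p) (A := A) K.e a hm hN).1]
  simp only [h.dot_grad hJ _ _ _ hm hN]
  congr 1
  ring

/-- the algebraic core -/
theorem core {m P C0 C1 e s z h2 Q F TT G W α γ : ℝ} (hm : 0 < m) (hP : 0 < P) (he : 0 < e)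
    (hs : s = h2 + Q) (hs0 : 0 < s) (hz : z ^ 2 = h2 * m ^ 2)
    (hflat : 0 ≤ s * F + C0 * Q) (hcurv : 0 ≤ z ^ 2 * C0 + s * (C1 - (α ^ 2 + γ) * e))
    (hF : F ≤ W + G * TT) :
    γ * (P * e) ≤ P * (m ^ 2 * (W + G * TT + C0) + C1) - α ^ 2 * (P * e) := by
  have hm2 : 0 < m ^ 2 := by positivity
  have key : 0 ≤ s * (m ^ 2 * (W + G * TT + C0) + (C1 - (α ^ 2 + γ) * e)) := by
    have h1 : s * F ≤ s * (W + G * TT) := mul_le_mul_of_nonneg_left hF hs0.le
    have h2' : 0 ≤ m ^ 2 * (s * (W + G * TT) + C0 * Q) := by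
      apply mul_nonneg hm2.le
      linarith
    have h3 : s * (m ^ 2 * (W + G * TT + C0) + (C1 - (α ^ 2 + γ) * e)) =
        m ^ 2 * (s * (W + G * TT) + C0 * Q) + (z ^ 2 * C0 + s * (C1 - (α ^ 2 + γ) * e)) := by
      rw [hz]
      have : s * (m ^ 2 * C0) = m ^ 2 * C0 * h2 + m ^ 2 * C0 * Q := by
        rw [hs]; ring
      linarith
    rw [h3]
    linarith
  have key2 : 0 ≤ m ^ 2 * (W + G * TT + C0) + (C1 - (α ^ 2 + γ) * e) := by
    by_contra hneg
    push Not at hneg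
    have := mul_neg_of_pos_of_neg hs0 hneg
    linarith
  have := mul_nonneg hP.le key2
  nlinarith [this]

theorem certi_int (K : KCert) {a γ κ : ℝ} (hK : K.Hyp k a γ κ)
    (hJ : Jet x p A T) (hu : 0 < dot x p)
    (hκ : dot p p + κ * (dot x p ^ 2 * jN A) ≤ 1) (hN0 : 0 < jN A) :
    γ * (K.toCS a).φ.f (jV x p A) ≤ (K.toCS a).div (((k : ℝ) - 1) / 2) x p A T -
      (K.toCS a).gr (((k : ℝ) - 1) / 2) x p A T / (4 * (K.toCS a).φ.f (jV x p A)) := by
  obtain ⟨b, l, h⟩ := exists_frame x A hJ.unit hJ.symA hJ.Ax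
  set m := Real.sqrt (jN A) with hmd
  have hm : 0 < m := Real.sqrt_pos.2 hN0
  have hN : jN A = m ^ 2 := (Real.sq_sqrt hN0.le).symm
  have hφ : (K.toCS a).φ.f (jV x p A) = jN A ^ a * K.e.f (dot p p) (dot x p * m)
      (jC3 A / m ^ 3) := (toCo_vals (x := x) (p := p) (A := A) K.e a hm hN).1
  rw [hφ, h.gr_eq hJ K a _ hm hN, h.div_eq hJ K a hm hN]
  -- scaled eigenvalues
  set L : Fin k → ℝ := fun i => l i / m with hL
  have hL1 : ∑ i, L i = 0 := by
    simp only [hL]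
    rw [← Finset.sum_div, h.sum_l hJ, zero_div]
  have hL2 : ∑ i, L i ^ 2 = 1 := by
    simp only [hL, div_pow]
    rw [← Finset.sum_div, ← h.jN_eq hJ, hN, div_self]
    positivity
  have hL3 : ∑ i, L i ^ 3 = jC3 A / m ^ 3 := by
    simp only [hL, div_pow]
    rw [← Finset.sum_div, ← h.jC3_eq hJ]
  have hL4 : ∑ i, L i ^ 4 = jc4 A / m ^ 4 := by
    simp only [hL, div_pow]
    rw [← Finset.sum_div, ← h.jc4_eq hJ]
  set s := dot p p with hsd
  set z := dot x p * m with hzd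
  set c := jC3 A / m ^ 3 with hcd
  set D := jc4 A / m ^ 4 with hDd
  have hz0 : 0 < z := mul_pos hu hm
  have hspar : s = dot x p ^ 2 + ∑ i, dot (b i) p ^ 2 := by
    rw [hsd, dot_self_sq, h.sum_sq p]
  have hs0 : 0 < s := by
    rw [hspar]
    have : 0 ≤ ∑ i, dot (b i) p ^ 2 := Finset.sum_nonneg fun i _ => sq_nonneg _
    have := pow_pos hu 2
    linarith
  have hz2 : z ^ 2 = dot x p ^ 2 * m ^ 2 := by
    rw [hzd]; ring
  have hdom : s + κ * z ^ 2 ≤ 1 := by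
    rw [hz2, ← hN]; exact hκ
  obtain ⟨e0, he0, hpos⟩ := hK.pos
  have hpos' := hpos L hL1 hL2 s z hs0.le hz0.le hdom
  rw [hL3] at hpos'
  have he : 0 < K.e.f s z c := lt_of_lt_of_le he0 hpos'.1
  have hG := hpos'.2
  set e := K.e.f s z c with hed
  set P := jN A ^ a with hPd
  have hP : 0 < P := Real.rpow_pos_of_pos hN0 a
  -- the scaled third derivatives
  set t : Fin k → Fin k → Fin k → ℝ := fun i j n => tau b T i j n / m ^ 2 with ht
  have ht1 : ∀ i j n, t i j n = t j i n := fun i j n => by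
    simp only [ht]; rw [tau_symm1 hJ.symT1 i j n]
  have ht2 : ∀ i j n, t i j n = t i n j := fun i j n => by
    simp only [ht]; rw [tau_symm2 hJ.symT2 i j n]
  have hTT : (jT T - 3 * m ^ 2) / m ^ 4 = ∑ i, ∑ j, ∑ n, t i j n ^ 2 := by
    rw [h.jT_eq hJ, ← h.jN_eq hJ, hN]
    simp only [ht, div_pow, ← Finset.sum_div]
    rw [show (m ^ 2) ^ 2 = m ^ 4 by ring]
    congr 1
    ring
  have hXs : ∀ i, dot (b i) (jX A T) / m ^ 3 = ∑ j, L j * t i j j := by
    intro i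
    rw [h.dot_jX hJ, Finset.sum_div]
    refine Finset.sum_congr rfl fun j _ => ?_
    simp only [hL, ht]
    field_simp
  have hVs : ∀ i, dot (b i) (jX3 A T) / m ^ 4 = ∑ j, L j ^ 2 * t i j j := by
    intro i
    rw [h.dot_jX3 hJ, Finset.sum_div]
    refine Finset.sum_congr rfl fun j _ => ?_
    simp only [hL, ht]
    field_simp
  have htr : ∀ i, ∑ j, t i j j = 0 := by
    intro i
    simp only [ht]
    rw [← Finset.sum_div]
    have h1 : ∑ j, tau b T i j j = ∑ j, tau b T j j i := by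
      refine Finset.sum_congr rfl fun j _ => ?_
      rw [tau_symm1 hJ.symT1 i j j, tau_symm2 hJ.symT2 j i j]
    rw [h1, h.tau_trace hJ, zero_div]
  -- the inequality for every direction
  set w : Fin k → ℝ := fun i => K.e.gc a s z c (L i) (dot (b i) p)
    (dot (b i) (jX A T) / m ^ 3) (dot (b i) (jX3 A T) / m ^ 4) with hw
  have hfl : ∀ i, 0 ≤ s * (K.G.f s z c * (3 * ∑ j, t i j j ^ 2 - 2 * t i i i ^ 2) +
      K.Fi a s z c (L i) (dot (b i) (jX A T) / m ^ 3) (dot (b i) (jX3 A T) / m ^ 4)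
        (dot (b i) p) - w i ^ 2 / (4 * e)) + K.C0 s z c D * dot (b i) p ^ 2 := by
    intro i
    have h1 := hK.flat L hL1 hL2 s z hs0 hz0.le hdom i (fun j => t i j j) (htr i)
      (w i / (2 * e)) (dot (b i) p)
    rw [hL3, hL4, ← hXs i, ← hVs i, K.form_eq] at h1
    have h2 : -(w i / (2 * e)) * w i + e * (w i / (2 * e)) ^ 2 = -(w i ^ 2 / (4 * e)) := by
      field_simp
      ring
    have h3 : K.G.f s z c * (3 * ∑ j, t i j j ^ 2 - 2 * t i i i ^ 2) +
      K.Fi a s z c (L i) (dot (b i) (jX A T) / m ^ 3) (dot (b i) (jX3 A T) / m ^ 4)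
        (dot (b i) p) - w i ^ 2 / (4 * e) = K.G.f s z c *
        (3 * ∑ j, t i j j ^ 2 - 2 * t i i i ^ 2) +
      K.Fi a s z c (L i) (dot (b i) (jX A T) / m ^ 3) (dot (b i) (jX3 A T) / m ^ 4)
        (dot (b i) p) - w i / (2 * e) * K.e.gc a s z c (L i) (dot (b i) p)
          (dot (b i) (jX A T) / m ^ 3) (dot (b i) (jX3 A T) / m ^ 4) +
        K.e.f s z c * (w i / (2 * e)) ^ 2 := by
      have h4 : w i / (2 * e) * w i - e * (w i / (2 * e)) ^ 2 = w i ^ 2 / (4 * e) := by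
        linarith
      rw [← h4]
      ring
    rw [h3]
    exact h1
  have hsumfl : 0 ≤ s * (K.G.f s z c * (∑ i, (3 * ∑ j, t i j j ^ 2 - 2 * t i i i ^ 2)) +
      (∑ i, K.Fi a s z c (L i) (dot (b i) (jX A T) / m ^ 3) (dot (b i) (jX3 A T) / m ^ 4)
        (dot (b i) p)) - (∑ i, w i ^ 2) / (4 * e)) + K.C0 s z c D * ∑ i, dot (b i) p ^ 2 := by
    have h1 := Finset.sum_nonneg fun i (_ : i ∈ Finset.univ) => hfl i
    rw [Finset.sum_add_distrib, ← Finset.mul_sum, ← Finset.mul_sum] at h1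
    refine le_of_le_of_eq h1 ?_
    congr 2
    rw [Finset.sum_sub_distrib, Finset.sum_add_distrib, ← Finset.mul_sum, Finset.sum_div]
  have hcv := hK.curv L hL1 hL2 s z hs0 hz0.le hdom
  rw [hL3, hL4] at hcv
  have hge := tau_sq_ge ht1 ht2
  have hfin := core (m := m) (P := P) (C0 := K.C0 s z c D)
    (C1 := k * K.G.f s z c - z * (k * K.F0.f s z c + K.F2.f s z c + c * K.F3.f s z c))
    (e := e) (s := s) (z := z) (h2 := dot x p ^ 2) (Q := ∑ i, dot (b i) p ^ 2)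
    (F := K.G.f s z c * (∑ i, (3 * ∑ j, t i j j ^ 2 - 2 * t i i i ^ 2)) +
      (∑ i, K.Fi a s z c (L i) (dot (b i) (jX A T) / m ^ 3) (dot (b i) (jX3 A T) / m ^ 4)
        (dot (b i) p)) - (∑ i, w i ^ 2) / (4 * e))
    (TT := ∑ i, ∑ j, ∑ n, t i j n ^ 2) (G := K.G.f s z c)
    (W := (∑ i, K.Fi a s z c (L i) (dot (b i) (jX A T) / m ^ 3)
      (dot (b i) (jX3 A T) / m ^ 4) (dot (b i) p)) - (∑ i, w i ^ 2) / (4 * e))
    (α := ((k : ℝ) - 1) / 2) (γ := γ) hm hP he hspar hs0 hz2 hsumfl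
    (by
      refine le_of_le_of_eq hcv ?_
      ring)
    (by
      have := mul_le_mul_of_nonneg_left hge hG
      linarith)
  refine le_of_le_of_eq hfin ?_
  rw [hTT]
  have hgr : ((2 * (((k : ℝ) - 1) / 2) * (P * e)) ^ 2 + ∑ i, (P * m * w i) ^ 2) /
      (4 * (P * e)) = (((k : ℝ) - 1) / 2) ^ 2 * (P * e) +
        P * m ^ 2 * ((∑ i, w i ^ 2) / (4 * e)) := by
    have h1 : ∑ i, (P * m * w i) ^ 2 = P ^ 2 * m ^ 2 * ∑ i, w i ^ 2 := by
      rw [Finset.mul_sum]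
      exact Finset.sum_congr rfl fun i _ => by ring
    rw [h1]
    field_simp
    ring
  rw [show (∑ i, (P * m * K.e.gc a s z c (l i / m) (dot (b i) p)
        (dot (b i) (jX A T) / m ^ 3) (dot (b i) (jX3 A T) / m ^ 4)) ^ 2) =
      ∑ i, (P * m * w i) ^ 2 from rfl, hgr]
  ring

end Vale.Agent.P098
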