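import Vale.Agent.Lib.P098.Bld.KGrad

/-!
# P098: class K certificates are certificates
-/

open scoped ContDiff

namespace Vale.Agent.P098

section smooth

/-- chain rule for a function of three variables -/
theorem KF.Good.comp {H : KF} (hH : H.Good) {g0 g1 g2 : ℝ → ℝ} {d0 d1 d2 t : ℝ}
    (h0 : HasDerivAt g0 d0 t) (h1 : HasDerivAt g1 d1 t) (h2 : HasDerivAt g2 d2 t) :
    HasDerivAt (fun t => H.f (g0 t) (g1 t) (g2 t))
      (d0 * H.fs (g0 t) (g1 t) (g2 t) + d1 * H.fz (g0 t) (g1 t) (g2 t) +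
        d2 * H.fc (g0 t) (g1 t) (g2 t)) t := by
  have hd : DifferentiableAt ℝ (fun w : Fin 3 → ℝ => H.f (w 0) (w 1) (w 2))
      ![g0 t, g1 t, g2 t] := hH.smooth.contDiffAt.differentiableAt (by simp)
  have hL := hd.hasFDerivAt
  set L := fderiv ℝ (fun w : Fin 3 → ℝ => H.f (w 0) (w 1) (w 2)) ![g0 t, g1 t, g2 t]
  have key : ∀ {a0 a1 a2 : ℝ → ℝ} {b0 b1 b2 : ℝ} {r : ℝ}, HasDerivAt a0 b0 r →
      HasDerivAt a1 b1 r → HasDerivAt a2 b2 r → a0 r = g0 t → a1 r = g1 t → a2 r = g2 t →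
      HasDerivAt (fun t => H.f (a0 t) (a1 t) (a2 t)) (L ![b0, b1, b2]) r := by
    intro a0 a1 a2 b0 b1 b2 r k0 k1 k2 e0 e1 e2
    have hc : HasDerivAt (fun t => (![a0 t, a1 t, a2 t] : Fin 3 → ℝ)) ![b0, b1, b2] r := by
      rw [hasDerivAt_pi]
      intro i
      fin_cases i
      · exact k0
      · exact k1
      · exact k2
    have hL' : HasFDerivAt (fun w : Fin 3 → ℝ => H.f (w 0) (w 1) (w 2)) L
        ((fun t => (![a0 t, a1 t, a2 t] : Fin 3 → ℝ)) r) := by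
      have : (fun t => (![a0 t, a1 t, a2 t] : Fin 3 → ℝ)) r = ![g0 t, g1 t, g2 t] := by
        simp only [e0, e1, e2]
      rw [this]
      exact hL
    exact hL'.comp_hasDerivAt r hc
  have q0 : L ![1, 0, 0] = H.fs (g0 t) (g1 t) (g2 t) :=
    (key (a0 := id) (a1 := fun _ => g1 t) (a2 := fun _ => g2 t) (hasDerivAt_id (g0 t))
      (hasDerivAt_const _ _) (hasDerivAt_const _ _) rfl rfl rfl).unique (hH.hs _ _ _)
  have q1 : L ![0, 1, 0] = H.fz (g0 t) (g1 t) (g2 t) :=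
    (key (a0 := fun _ => g0 t) (a1 := id) (a2 := fun _ => g2 t) (hasDerivAt_const _ _)
      (hasDerivAt_id (g1 t)) (hasDerivAt_const _ _) rfl rfl rfl).unique (hH.hz _ _ _)
  have q2 : L ![0, 0, 1] = H.fc (g0 t) (g1 t) (g2 t) :=
    (key (a0 := fun _ => g0 t) (a1 := fun _ => g1 t) (a2 := id) (hasDerivAt_const _ _)
      (hasDerivAt_const _ _) (hasDerivAt_id (g2 t)) rfl rfl rfl).unique (hH.hc _ _ _)
  have h := key h0 h1 h2 rfl rfl rfl
  have hv : (![d0, d1, d2] : Fin 3 → ℝ) = d0 • ![1, 0, 0] + d1 • ![0, 1, 0] + d2 • ![0, 0, 1] := by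
    funext i
    fin_cases i <;> simp
  rw [hv, map_add, map_add, map_smul, map_smul, map_smul, q0, q1, q2, smul_eq_mul, smul_eq_mul,
    smul_eq_mul] at h
  exact h

/-- the values of the derivatives through the Fréchet derivative -/
theorem KF.Good.fderiv_eq {H : KF} (hH : H.Good) (s z c : ℝ) :
    H.fs s z c = fderiv ℝ (fun w : Fin 3 → ℝ => H.f (w 0) (w 1) (w 2)) ![s, z, c] ![1, 0, 0] ∧
    H.fz s z c = fderiv ℝ (fun w : Fin 3 → ℝ => H.f (w 0) (w 1) (w 2)) ![s, z, c] ![0, 1, 0] ∧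
    H.fc s z c = fderiv ℝ (fun w : Fin 3 → ℝ => H.f (w 0) (w 1) (w 2)) ![s, z, c] ![0, 0, 1] := by
  have hd : DifferentiableAt ℝ (fun w : Fin 3 → ℝ => H.f (w 0) (w 1) (w 2))
      ![s, z, c] := hH.smooth.contDiffAt.differentiableAt (by simp)
  have hL := hd.hasFDerivAt
  set L := fderiv ℝ (fun w : Fin 3 → ℝ => H.f (w 0) (w 1) (w 2)) ![s, z, c]
  have key : ∀ {a0 a1 a2 : ℝ → ℝ} {b0 b1 b2 : ℝ} {r : ℝ}, HasDerivAt a0 b0 r →
      HasDerivAt a1 b1 r → HasDerivAt a2 b2 r → a0 r = s → a1 r = z → a2 r = c →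
      HasDerivAt (fun t => H.f (a0 t) (a1 t) (a2 t)) (L ![b0, b1, b2]) r := by
    intro a0 a1 a2 b0 b1 b2 r k0 k1 k2 e0 e1 e2
    have hc : HasDerivAt (fun t => (![a0 t, a1 t, a2 t] : Fin 3 → ℝ)) ![b0, b1, b2] r := by
      rw [hasDerivAt_pi]
      intro i
      fin_cases i
      · exact k0
      · exact k1
      · exact k2
    have hL' : HasFDerivAt (fun w : Fin 3 → ℝ => H.f (w 0) (w 1) (w 2)) L
        ((fun t => (![a0 t, a1 t, a2 t] : Fin 3 → ℝ)) r) := by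
      have : (fun t => (![a0 t, a1 t, a2 t] : Fin 3 → ℝ)) r = ![s, z, c] := by
        simp only [e0, e1, e2]
      rw [this]
      exact hL
    exact hL'.comp_hasDerivAt r hc
  refine ⟨?_, ?_, ?_⟩
  · exact ((key (a0 := id) (a1 := fun _ => z) (a2 := fun _ => c) (hasDerivAt_id s)
      (hasDerivAt_const _ _) (hasDerivAt_const _ _) rfl rfl rfl).unique (hH.hs _ _ _)).symm
  · exact ((key (a0 := fun _ => s) (a1 := id) (a2 := fun _ => c) (hasDerivAt_const _ _)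
      (hasDerivAt_id z) (hasDerivAt_const _ _) rfl rfl rfl).unique (hH.hz _ _ _)).symm
  · exact ((key (a0 := fun _ => s) (a1 := fun _ => z) (a2 := id) (hasDerivAt_const _ _)
      (hasDerivAt_const _ _) (hasDerivAt_id c) rfl rfl rfl).unique (hH.hc _ _ _)).symm

/-- local bounds -/
theorem KF.Good.bound {H : KF} (hH : H.Good) (M : ℝ) : ∃ B : ℝ, 0 ≤ B ∧ ∀ s z c : ℝ,
    |s| ≤ M → |z| ≤ M → |c| ≤ M → |H.f s z c| ≤ B ∧ |H.fs s z c| ≤ B ∧ |H.fz s z c| ≤ B ∧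
      |H.fc s z c| ≤ B := by
  have hK : IsCompact (Metric.closedBall (0 : Fin 3 → ℝ) M) := isCompact_closedBall _ _
  obtain ⟨B0, hB0⟩ := hK.exists_bound_of_continuousOn (hH.smooth.continuous.continuousOn)
  have hcf : Continuous (fderiv ℝ (fun w : Fin 3 → ℝ => H.f (w 0) (w 1) (w 2))) :=
    hH.smooth.continuous_fderiv (by simp)
  obtain ⟨B1, hB1⟩ := hK.exists_bound_of_continuousOn hcf.continuousOn
  refine ⟨|B0| + |B1| * (‖(![1, 0, 0] : Fin 3 → ℝ)‖ + ‖(![0, 1, 0] : Fin 3 → ℝ)‖ +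
    ‖(![0, 0, 1] : Fin 3 → ℝ)‖), by positivity, ?_⟩
  intro s z c hs hz hc
  have hM : 0 ≤ M := le_trans (abs_nonneg s) hs
  have hmem : (![s, z, c] : Fin 3 → ℝ) ∈ Metric.closedBall (0 : Fin 3 → ℝ) M := by
    rw [mem_closedBall_zero_iff, pi_norm_le_iff_of_nonneg hM]
    intro i
    fin_cases i
    · exact hs
    · exact hz
    · exact hc
  have h0 := hB0 _ hmem
  have h1 := hB1 _ hmem
  have n0 := norm_nonneg (![1, 0, 0] : Fin 3 → ℝ)
  have n1 := norm_nonneg (![0, 1, 0] : Fin 3 → ℝ)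
  have n2 := norm_nonneg (![0, 0, 1] : Fin 3 → ℝ)
  obtain ⟨e1, e2, e3⟩ := hH.fderiv_eq s z c
  have hb : ∀ y : Fin 3 → ℝ, |fderiv ℝ (fun w : Fin 3 → ℝ => H.f (w 0) (w 1) (w 2)) ![s, z, c] y| ≤
      |B1| * ‖y‖ := by
    intro y
    have := (fderiv ℝ (fun w : Fin 3 → ℝ => H.f (w 0) (w 1) (w 2)) ![s, z, c]).le_opNorm y
    rw [Real.norm_eq_abs] at this
    refine this.trans ?_
    gcongr
    exact h1.trans (le_abs_self _)
  have p0 := abs_nonneg B0
  have p1 := abs_nonneg B1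
  have m0 := mul_nonneg p1 n0
  have m1 := mul_nonneg p1 n1
  have m2 := mul_nonneg p1 n2
  refine ⟨?_, ?_, ?_, ?_⟩
  · have : |H.f s z c| ≤ B0 := by
      have h := h0
      rw [Real.norm_eq_abs] at h
      exact h
    have := le_abs_self B0
    rw [mul_add, mul_add]
    linarith
  · rw [e1]
    have := hb ![1, 0, 0]
    rw [mul_add, mul_add]
    linarith
  · rw [e2]
    have := hb ![0, 1, 0]
    rw [mul_add, mul_add]
    linarith
  · rw [e3]
    have := hb ![0, 0, 1]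
    rw [mul_add, mul_add]
    linarith

theorem KF.Good.toCo {H : KF} (hH : H.Good) (a : ℝ) : (H.toCo a).Good where
  smooth := by
    intro v hv
    have hp : ∀ (i : Fin 7), ContDiffAt ℝ ∞ (fun v : Fin 7 → ℝ => v i) v :=
      fun i => (contDiff_apply ℝ ℝ i).contDiffAt
    have hr : ∀ q : ℝ, ContDiffAt ℝ ∞ (fun v : Fin 7 → ℝ => v 2 ^ q) v := fun q =>
      (hp 2).rpow_const_of_ne hv.ne'
    have hz : ContDiffAt ℝ ∞ kz v := (hp 0).mul (hr _)
    have hc : ContDiffAt ℝ ∞ kc v := (hp 3).mul (hr _)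
    have hin : ContDiffAt ℝ ∞ (fun v : Fin 7 → ℝ => (![v 1, kz v, kc v] : Fin 3 → ℝ)) v := by
      rw [contDiffAt_pi]
      intro i
      fin_cases i
      · exact hp 1
      · exact hz
      · exact hc
    have hco : ContDiffAt ℝ ∞ (fun v : Fin 7 → ℝ => H.f (v 1) (kz v) (kc v)) v :=
      ContDiffAt.comp (g := fun w : Fin 3 → ℝ => H.f (w 0) (w 1) (w 2)) v
        hH.smooth.contDiffAt hin
    exact (hr a).mul hco
  deriv := by
    intro v hv b
    have hid := hasDerivAt_id (v b)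
    have hpow : ∀ q : ℝ, HasDerivAt (fun t : ℝ => t ^ q) (q * v 2 ^ (q - 1)) (v 2) := fun q =>
      Real.hasDerivAt_rpow_const (Or.inl hv.ne')
    fin_cases b
    · -- u
      have h1 : HasDerivAt (fun t : ℝ => t * v 2 ^ (1 / 2 : ℝ)) (v 2 ^ (1 / 2 : ℝ)) (v 0) := by
        simpa using (hasDerivAt_id (v 0)).mul_const (v 2 ^ (1 / 2 : ℝ))
      have h := (hH.comp (hasDerivAt_const (v 0) (v 1)) h1
        (hasDerivAt_const (v 0) (kc v))).const_mul (v 2 ^ a)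
      have h' : HasDerivAt (fun t : ℝ => v 2 ^ a * H.f (v 1) (t * v 2 ^ (1 / 2 : ℝ)) (kc v))
        (v 2 ^ a * (H.fz (v 1) (kz v) (kc v) * v 2 ^ (1 / 2 : ℝ))) (v 0) := by
        refine h.congr_deriv ?_
        show v 2 ^ a * (0 * H.fs (v 1) (kz v) (kc v) + v 2 ^ (1 / 2 : ℝ) *
          H.fz (v 1) (kz v) (kc v) + 0 * H.fc (v 1) (kz v) (kc v)) = _
        ring
      exact h'
    · -- s
      have h := (hH.comp (hasDerivAt_id (v 1)) (hasDerivAt_const (v 1) (kz v))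
        (hasDerivAt_const (v 1) (kc v))).const_mul (v 2 ^ a)
      have h' : HasDerivAt (fun t : ℝ => v 2 ^ a * H.f t (kz v) (kc v))
        (v 2 ^ a * H.fs (v 1) (kz v) (kc v)) (v 1) := by
        refine h.congr_deriv ?_
        show v 2 ^ a * (1 * H.fs (v 1) (kz v) (kc v) + 0 *
          H.fz (v 1) (kz v) (kc v) + 0 * H.fc (v 1) (kz v) (kc v)) = _
        ring
      exact h'
    · -- N
      have h1 : HasDerivAt (fun t : ℝ => v 0 * t ^ (1 / 2 : ℝ))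
          (v 0 * (1 / 2 * v 2 ^ (-(1 / 2) : ℝ))) (v 2) := by
        have := (hpow (1 / 2)).const_mul (v 0)
        rw [show (1 / 2 - 1 : ℝ) = -(1 / 2) by norm_num] at this
        exact this
      have h2 : HasDerivAt (fun t : ℝ => v 3 * t ^ (-(3 / 2) : ℝ))
          (v 3 * (-(3 / 2) * v 2 ^ (-(5 / 2) : ℝ))) (v 2) := by
        have := (hpow (-(3 / 2))).const_mul (v 3)
        rw [show (-(3 / 2) - 1 : ℝ) = -(5 / 2) by norm_num] at this
        exact this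
      have h := (hpow a).mul (hH.comp (hasDerivAt_const (v 2) (v 1)) h1 h2)
      have h' : HasDerivAt (fun t : ℝ => t ^ a * H.f (v 1) (v 0 * t ^ (1 / 2 : ℝ))
          (v 3 * t ^ (-(3 / 2) : ℝ)))
        (a * v 2 ^ (a - 1) * H.f (v 1) (kz v) (kc v) +
      v 2 ^ a * (H.fz (v 1) (kz v) (kc v) * (v 0 * (1 / 2 * v 2 ^ (-(1 / 2) : ℝ))) +
        H.fc (v 1) (kz v) (kc v) * (v 3 * (-(3 / 2) * v 2 ^ (-(5 / 2) : ℝ))))) (v 2) := by
        refine h.congr_deriv ?_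
        show a * v 2 ^ (a - 1) * H.f (v 1) (kz v) (kc v) + v 2 ^ a *
          (0 * H.fs (v 1) (kz v) (kc v) + v 0 * (1 / 2 * v 2 ^ (-(1 / 2) : ℝ)) *
          H.fz (v 1) (kz v) (kc v) + v 3 * (-(3 / 2) * v 2 ^ (-(5 / 2) : ℝ)) *
          H.fc (v 1) (kz v) (kc v)) = _
        ring
      exact h'
    · -- c3
      have h1 : HasDerivAt (fun t : ℝ => t * v 2 ^ (-(3 / 2) : ℝ)) (v 2 ^ (-(3 / 2) : ℝ))
          (v 3) := by
        simpa using (hasDerivAt_id (v 3)).mul_const (v 2 ^ (-(3 / 2) : ℝ))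
      have h := (hH.comp (hasDerivAt_const (v 3) (v 1)) (hasDerivAt_const (v 3) (kz v))
        h1).const_mul (v 2 ^ a)
      have h' : HasDerivAt (fun t : ℝ => v 2 ^ a * H.f (v 1) (kz v) (t * v 2 ^ (-(3 / 2) : ℝ)))
        (v 2 ^ a * (H.fc (v 1) (kz v) (kc v) * v 2 ^ (-(3 / 2) : ℝ))) (v 3) := by
        refine h.congr_deriv ?_
        show v 2 ^ a * (0 * H.fs (v 1) (kz v) (kc v) + 0 *
          H.fz (v 1) (kz v) (kc v) + v 2 ^ (-(3 / 2) : ℝ) * H.fc (v 1) (kz v) (kc v)) = _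
        ring
      exact h'
    · exact hasDerivAt_const (v 4) (v 2 ^ a * H.f (v 1) (kz v) (kc v))
    · exact hasDerivAt_const (v 5) (v 2 ^ a * H.f (v 1) (kz v) (kc v))
    · exact hasDerivAt_const (v 6) (v 2 ^ a * H.f (v 1) (kz v) (kc v))

theorem Co.zero_good : Co.zero.Good where
  smooth := fun _ _ => contDiffAt_const
  deriv := fun v _ b => hasDerivAt_const (v b) _

theorem KCert.Good.toCS {K : KCert} (hK : K.Good) (a : ℝ) :
    (K.toCS a).φ.Good ∧ ∀ m, ((K.toCS a).c m).Good := by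
  refine ⟨hK.e.toCo a, ?_⟩
  intro m
  fin_cases m
  · exact hK.G.toCo _
  · exact hK.F0.toCo _
  · exact hK.F1.toCo _
  · exact hK.F2.toCo _
  · exact hK.F3.toCo _
  · exact Co.zero_good
  · exact Co.zero_good
  · exact Co.zero_good
  · exact Co.zero_good

end smooth

section upper

theorem dom_sc {R : ℝ} {v : Fin 7 → ℝ} (hv : Dom R v) :
    |v 1| ≤ R ∧ |kz v| ≤ R * R ^ (1 / 2 : ℝ) ∧ |kc v| ≤ 1 := by
  have hN := hv.N_pos
  have hR : 0 < R := lt_of_lt_of_le hN hv.N_le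
  refine ⟨?_, ?_, ?_⟩
  · rw [abs_of_nonneg hv.s_nn]
    exact hv.s_le
  · unfold kz
    rw [abs_mul, abs_of_pos (Real.rpow_pos_of_pos hN _)]
    have h1 := hv.u_le
    have h2 : v 2 ^ (1 / 2 : ℝ) ≤ R ^ (1 / 2 : ℝ) :=
      Real.rpow_le_rpow hN.le hv.N_le (by norm_num)
    have h3 := Real.rpow_pos_of_pos hN (1 / 2 : ℝ)
    gcongr
  · unfold kc
    rw [abs_mul, abs_of_pos (Real.rpow_pos_of_pos hN _)]
    calc |v 3| * v 2 ^ (-(3 / 2) : ℝ) ≤ v 2 ^ (3 / 2 : ℝ) * v 2 ^ (-(3 / 2) : ℝ) := by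
          have := hv.c3
          have h3 := Real.rpow_pos_of_pos hN (-(3 / 2) : ℝ)
          gcongr
      _ = 1 := by
        rw [← Real.rpow_add hN]
        simp

theorem KF.Good.f_le {H : KF} (hH : H.Good) (R a' β : ℝ) (hβ : 0 ≤ β) : ∃ c : ℝ, 0 ≤ c ∧
    ∀ v : Fin 7 → ℝ, Dom R v → |(H.toCo a').f v| ≤ c * v 2 ^ (a' - β) := by
  obtain ⟨B, hB0, hB⟩ := hH.bound (max R (max (R * R ^ (1 / 2 : ℝ)) 1))
  refine ⟨B * |R ^ β|, by positivity, ?_⟩
  intro v hv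
  have hN := hv.N_pos
  have hR : 0 < R := lt_of_lt_of_le hN hv.N_le
  obtain ⟨h1, h2, h3⟩ := dom_sc hv
  obtain ⟨b1, -, -, -⟩ := hB (v 1) (kz v) (kc v) (h1.trans (le_max_left _ _))
    (h2.trans ((le_max_left _ _).trans (le_max_right _ _)))
    (h3.trans ((le_max_right _ _).trans (le_max_right _ _)))
  have hP : 0 < v 2 ^ (a' - β) := Real.rpow_pos_of_pos hN _
  have e1 : v 2 ^ a' = v 2 ^ (a' - β) * v 2 ^ β := by
    rw [← Real.rpow_add hN]
    congr 1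
    ring
  have e2 : v 2 ^ β ≤ |R ^ β| :=
    (Real.rpow_le_rpow hN.le hv.N_le hβ).trans (le_abs_self _)
  have e3 : 0 < v 2 ^ β := Real.rpow_pos_of_pos hN _
  show |v 2 ^ a' * H.f (v 1) (kz v) (kc v)| ≤ _
  rw [abs_mul, e1, abs_of_pos (mul_pos hP e3)]
  calc v 2 ^ (a' - β) * v 2 ^ β * |H.f (v 1) (kz v) (kc v)| ≤
      v 2 ^ (a' - β) * |R ^ β| * B := by gcongr
    _ = _ := by ring

theorem KF.Good.D_le {H : KF} (hH : H.Good) (R a : ℝ) : ∃ c : ℝ, 0 ≤ c ∧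
    ∀ v : Fin 7 → ℝ, Dom R v → ∀ b, |(H.toCo a).D b v| ≤ c * v 2 ^ (a - eD b) := by
  obtain ⟨B, hB0, hB⟩ := hH.bound (max R (max (R * R ^ (1 / 2 : ℝ)) 1))
  refine ⟨B * (|a| + 2 + |R ^ (1 / 2 : ℝ)| + |R| * |R ^ (1 / 2 : ℝ)|), by positivity, ?_⟩
  intro v hv b
  have hN := hv.N_pos
  have hR : 0 < R := lt_of_lt_of_le hN hv.N_le
  obtain ⟨h1, h2, h3⟩ := dom_sc hv
  obtain ⟨b0, bs, bz, bc⟩ := hB (v 1) (kz v) (kc v) (h1.trans (le_max_left _ _))
    (h2.trans ((le_max_left _ _).trans (le_max_right _ _)))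
    (h3.trans ((le_max_right _ _).trans (le_max_right _ _)))
  have hR' : 0 < R ^ (1 / 2 : ℝ) := Real.rpow_pos_of_pos hR _
  rw [abs_of_pos hR', abs_of_pos hR]
  set R' := R ^ (1 / 2 : ℝ) with hR'd
  set m := Real.sqrt (v 2) with hmd
  have hm : 0 < m := Real.sqrt_pos.2 hN
  have hNm : v 2 = m ^ 2 := (Real.sq_sqrt hN.le).symm
  obtain ⟨r1, r2, r3, r5, ra⟩ := rpow_facts hm hNm
  obtain ⟨ra1, ra2, ra3⟩ := ra a
  have hmR : m ≤ R' := by
    rw [← r1]
    exact Real.rpow_le_rpow hN.le hv.N_le (by norm_num)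
  have ra4 : v 2 ^ (a - 3 / 2) = v 2 ^ a / m ^ 3 := by
    rw [show a - 3 / 2 = (a - 1) - 1 / 2 by ring, (ra (a - 1)).2.2, ra1]
    field_simp
  set P := v 2 ^ a with hPd
  have hP : 0 < P := Real.rpow_pos_of_pos hN _
  have hv0 := hv.u_le
  have hv3 : |v 3| ≤ m ^ 3 := by
    have h := hv.c3
    have e : v 2 ^ (3 / 2 : ℝ) = m ^ 3 := by
      rw [show (3 / 2 : ℝ) = 1 + 1 / 2 by norm_num, Real.rpow_add hN, Real.rpow_one, r1, hNm]
      ring
    rwa [e] at h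
  have ha := abs_nonneg a
  have hsum : 0 ≤ B * (|a| + 2 + R' + R * R') := by positivity
  fin_cases b
  · show |P * (H.fz (v 1) (kz v) (kc v) * v 2 ^ (1 / 2 : ℝ))| ≤ _ * v 2 ^ (a - 0)
    rw [r1, sub_zero, abs_mul, abs_mul, abs_of_pos hP, abs_of_pos hm]
    calc P * (|H.fz (v 1) (kz v) (kc v)| * m) ≤ P * (B * R') := by gcongr
      _ ≤ B * (|a| + 2 + R' + R * R') * P := by
        have h11 : 0 ≤ P * B * (|a| + 2 + R * R') := by positivity
        have h12 : B * (|a| + 2 + R' + R * R') * P = P * B * (|a| + 2 + R * R') +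
          P * (B * R') := by ring
        rw [h12]
        linarith
  · show |P * H.fs (v 1) (kz v) (kc v)| ≤ _ * v 2 ^ (a - 1 / 2)
    rw [ra3, abs_mul, abs_of_pos hP]
    calc P * |H.fs (v 1) (kz v) (kc v)| ≤ P * B := by gcongr
      _ = B * m * (P / m) := by field_simp
      _ ≤ B * R' * (P / m) := by gcongr
      _ ≤ B * (|a| + 2 + R' + R * R') * (P / m) := by
        have hPm : 0 ≤ P / m := by positivity
        have h11 : 0 ≤ P / m * B * (|a| + 2 + R * R') := by positivity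
        have h12 : B * (|a| + 2 + R' + R * R') * (P / m) = P / m * B * (|a| + 2 + R * R') +
          B * R' * (P / m) := by ring
        rw [h12]
        linarith
  · show |a * v 2 ^ (a - 1) * H.f (v 1) (kz v) (kc v) +
      P * (H.fz (v 1) (kz v) (kc v) * (v 0 * (1 / 2 * v 2 ^ (-(1 / 2) : ℝ))) +
        H.fc (v 1) (kz v) (kc v) * (v 3 * (-(3 / 2) * v 2 ^ (-(5 / 2) : ℝ))))| ≤
        _ * v 2 ^ (a - 1)
    rw [ra1, r2, r5]
    have e1 : a * (P / m ^ 2) * H.f (v 1) (kz v) (kc v) +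
      P * (H.fz (v 1) (kz v) (kc v) * (v 0 * (1 / 2 * (1 / m))) +
        H.fc (v 1) (kz v) (kc v) * (v 3 * (-(3 / 2) * (1 / m ^ 5)))) =
        (P / m ^ 2) * (a * H.f (v 1) (kz v) (kc v) + 1 / 2 * (H.fz (v 1) (kz v) (kc v) *
          v 0 * m) + -(3 / 2) * (H.fc (v 1) (kz v) (kc v) * (v 3 / m ^ 3))) := by
      field_simp
      ring
    have hPm : 0 < P / m ^ 2 := by positivity
    rw [e1, abs_mul, abs_of_pos hPm, mul_comm _ (P / m ^ 2)]
    refine mul_le_mul_of_nonneg_left ?_ hPm.le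
    have t1 : |a * H.f (v 1) (kz v) (kc v)| ≤ |a| * B := by
      rw [abs_mul]
      gcongr
    have t2 : |1 / 2 * (H.fz (v 1) (kz v) (kc v) * v 0 * m)| ≤ B * R * R' := by
      rw [abs_mul, abs_mul, abs_mul, abs_of_pos hm, abs_of_pos (by norm_num : (0 : ℝ) < 1 / 2)]
      have h4 : |H.fz (v 1) (kz v) (kc v)| * |v 0| * m ≤ B * R * R' := by gcongr
      have h5 : 0 ≤ |H.fz (v 1) (kz v) (kc v)| * |v 0| * m := by positivity
      linarith
    have t3 : |-(3 / 2) * (H.fc (v 1) (kz v) (kc v) * (v 3 / m ^ 3))| ≤ 3 / 2 * B := by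
      have hm3 : 0 < m ^ 3 := by positivity
      have h6 : |v 3 / m ^ 3| ≤ 1 := by
        rw [abs_div, abs_of_pos hm3, div_le_one hm3]
        exact hv3
      rw [abs_mul, abs_neg, abs_of_pos (by norm_num : (0 : ℝ) < 3 / 2), abs_mul]
      have h7 : |H.fc (v 1) (kz v) (kc v)| * |v 3 / m ^ 3| ≤ B * 1 := by gcongr
      linarith
    have h8 := abs_add_three (a * H.f (v 1) (kz v) (kc v))
      (1 / 2 * (H.fz (v 1) (kz v) (kc v) * v 0 * m))
      (-(3 / 2) * (H.fc (v 1) (kz v) (kc v) * (v 3 / m ^ 3)))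
    have h9 : 0 ≤ B * R' := by positivity
    have h10 : B * (|a| + 2 + R' + R * R') = |a| * B + 2 * B + B * R' + B * R * R' := by ring
    rw [h10]
    linarith
  · show |P * (H.fc (v 1) (kz v) (kc v) * v 2 ^ (-(3 / 2) : ℝ))| ≤ _ * v 2 ^ (a - 3 / 2)
    rw [ra4, r3, abs_mul, abs_mul, abs_of_pos hP, abs_of_pos (by positivity : 0 < 1 / m ^ 3)]
    calc P * (|H.fc (v 1) (kz v) (kc v)| * (1 / m ^ 3)) ≤ P * (B * (1 / m ^ 3)) := by gcongr
      _ = B * 1 * (P / m ^ 3) := by field_simp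
      _ ≤ B * (|a| + 2 + R' + R * R') * (P / m ^ 3) := by
        have : (1 : ℝ) ≤ |a| + 2 + R' + R * R' := by
          have : 0 ≤ R * R' := by positivity
          linarith
        gcongr
  · show |(0 : ℝ)| ≤ _
    rw [abs_zero]
    have := Real.rpow_pos_of_pos hN (a - eD ⟨4, by norm_num⟩)
    positivity
  · show |(0 : ℝ)| ≤ _
    rw [abs_zero]
    have := Real.rpow_pos_of_pos hN (a - eD ⟨5, by norm_num⟩)
    positivity
  · show |(0 : ℝ)| ≤ _
    rw [abs_zero]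
    have := Real.rpow_pos_of_pos hN (a - eD ⟨6, by norm_num⟩)
    positivity

end upper

end Vale.Agent.P098
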