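import Vale.Agent.Lib.P098.Bld.KInt
import Vale.Agent.Lib.P098.Bld.KUp

/-!
# P098: class K certificates are certificates, main theorem
-/

open scoped ContDiff

namespace Vale.Agent.P098

theorem KCert.upper {K : KCert} (hK : K.Good) (a : ℝ) (R : ℝ) :
    ∃ c : ℝ, ∀ v : Fin 7 → ℝ, Dom R v → |(K.toCS a).φ.f v| ≤ c * v 2 ^ a ∧
    (∀ b, |(K.toCS a).φ.D b v| ≤ c * v 2 ^ (a - eD b)) ∧
      ∀ m, |((K.toCS a).c m).f v| ≤ c * v 2 ^ (a - eF m) := by
  obtain ⟨c0, p0, h0⟩ := hK.e.f_le R a 0 le_rfl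
  obtain ⟨c1, p1, h1⟩ := hK.e.D_le R a
  obtain ⟨c2, p2, h2⟩ := hK.G.f_le R (a - 1) 0 le_rfl
  obtain ⟨c3, p3, h3⟩ := hK.F0.f_le R (a + 1 / 2) (1 / 2) (by norm_num)
  obtain ⟨c4, p4, h4⟩ := hK.F1.f_le R a (1 / 2) (by norm_num)
  obtain ⟨c5, p5, h5⟩ := hK.F2.f_le R (a - 1 / 2) (1 / 2) (by norm_num)
  obtain ⟨c6, p6, h6⟩ := hK.F3.f_le R (a - 1) (1 / 2) (by norm_num)
  refine ⟨c0 + c1 + c2 + c3 + c4 + c5 + c6, ?_⟩
  intro v hv
  have hN := hv.N_pos
  have mono : ∀ {w c q : ℝ}, |w| ≤ c * v 2 ^ q → c ≤ c0 + c1 + c2 + c3 + c4 + c5 + c6 →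
      |w| ≤ (c0 + c1 + c2 + c3 + c4 + c5 + c6) * v 2 ^ q := by
    intro w c q h hc
    exact h.trans (mul_le_mul_of_nonneg_right hc (Real.rpow_pos_of_pos hN _).le)
  have zer : ∀ q : ℝ, |(0 : ℝ)| ≤ (c0 + c1 + c2 + c3 + c4 + c5 + c6) * v 2 ^ q := by
    intro q
    rw [abs_zero]
    have := Real.rpow_pos_of_pos hN q
    positivity
  refine ⟨?_, ?_, ?_⟩
  · have h := h0 v hv
    rw [sub_zero] at h
    exact mono h (by linarith)
  · intro b
    exact mono (h1 v hv b) (by linarith)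
  · intro m
    fin_cases m
    · have h := h2 v hv
      rw [show a - 1 - 0 = a - eF 0 by simp [eF]] at h
      exact mono h (by linarith)
    · have h := h3 v hv
      rw [show a + 1 / 2 - 1 / 2 = a - eF 1 by simp [eF]] at h
      exact mono h (by linarith)
    · have h := h4 v hv
      rw [show a - 1 / 2 = a - eF 2 by simp [eF]] at h
      exact mono h (by linarith)
    · have h := h5 v hv
      rw [show a - 1 / 2 - 1 / 2 = a - eF 3 by simp [eF]; ring] at h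
      exact mono h (by linarith)
    · have h := h6 v hv
      rw [show a - 1 - 1 / 2 = a - eF 4 by simp [eF]; ring] at h
      exact mono h (by linarith)
    · exact zer _
    · exact zer _
    · exact zer _
    · exact zer _

variable {k : ℕ}

/-- every algebraic Hessian occurs in a jet -/
theorem exists_jet {x : Fin (k + 1) → ℝ} (p : Fin (k + 1) → ℝ)
    {A : Fin (k + 1) → Fin (k + 1) → ℝ} (hx : ∑ i, x i ^ 2 = 1)
    (hA : ∀ i j, A i j = A j i) (htr : ∑ i, A i i = 0) (hAx : ∀ j, ∑ i, x i * A i j = 0) :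
    ∃ T : Fin (k + 1) → Fin (k + 1) → Fin (k + 1) → ℝ, Jet x p A T := by
  refine ⟨fun i j m => -(x i * A j m + x j * A i m + x m * A i j), hx, hA, htr, hAx, ?_, ?_, ?_,
    ?_⟩
  · intro i j m
    rw [hA i j]
    ring
  · intro i j m
    rw [hA j m]
    ring
  · intro m
    have h1 : ∀ i, -(x i * A i m + x i * A i m + x m * A i i) =
        -2 * (x i * A i m) - x m * A i i := fun i => by ring
    simp only [h1, Finset.sum_sub_distrib, ← Finset.mul_sum, hAx, htr]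
    ring
  · intro j m
    have h1 : ∀ i, x i * -(x i * A j m + x j * A i m + x m * A i j) =
        -(A j m) * x i ^ 2 - x j * (x i * A i m) - x m * (x i * A i j) := fun i => by ring
    simp only [h1, Finset.sum_sub_distrib, ← Finset.mul_sum, hAx, hx]
    ring

theorem KCert.lower {K : KCert} {a γ κ : ℝ} (hK : K.Hyp k a γ κ) (R : ℝ) :
    ∃ c : ℝ, 0 < c ∧ ∀ (x p : Fin (k + 1) → ℝ) (A : Fin (k + 1) → Fin (k + 1) → ℝ),
    ∑ i, x i ^ 2 = 1 → (∀ i j, A i j = A j i) → ∑ i, A i i = 0 →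
    (∀ j, ∑ i, x i * A i j = 0) → 0 ≤ dot x p →
    dot p p + κ * (dot x p ^ 2 * jN A) ≤ 1 → 0 < jN A → jN A ≤ R →
    c * jN A ^ a ≤ (K.toCS a).φ.f (jV x p A) := by
  obtain ⟨e0, he0, hpos⟩ := hK.pos
  refine ⟨e0, he0, ?_⟩
  intro x p A hx hA htr hAx hu hκ hN0 _
  obtain ⟨T, hJ⟩ := exists_jet p hx hA htr hAx
  obtain ⟨b, l, h⟩ := exists_frame x A hJ.unit hJ.symA hJ.Ax
  set m := Real.sqrt (jN A) with hmd
  have hm : 0 < m := Real.sqrt_pos.2 hN0
  have hN : jN A = m ^ 2 := (Real.sq_sqrt hN0.le).symm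
  have hφ : (K.toCS a).φ.f (jV x p A) = jN A ^ a * K.e.f (dot p p) (dot x p * m)
      (jC3 A / m ^ 3) := (toCo_vals (x := x) (p := p) (A := A) K.e a hm hN).1
  rw [hφ]
  have hL1 : ∑ i, l i / m = 0 := by
    rw [← Finset.sum_div, h.sum_l hJ, zero_div]
  have hL2 : ∑ i, (l i / m) ^ 2 = 1 := by
    simp only [div_pow]
    rw [← Finset.sum_div, ← h.jN_eq hJ, hN, div_self]
    positivity
  have hL3 : ∑ i, (l i / m) ^ 3 = jC3 A / m ^ 3 := by
    simp only [div_pow]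
    rw [← Finset.sum_div, ← h.jC3_eq hJ]
  have hs0 : 0 ≤ dot p p := by
    rw [dot_self_sq]
    exact Finset.sum_nonneg fun i _ => sq_nonneg _
  have hdom : dot p p + κ * (dot x p * m) ^ 2 ≤ 1 := by
    rw [mul_pow, ← hN]
    exact hκ
  have h1 := (hpos (fun i => l i / m) hL1 hL2 _ _ hs0 (mul_nonneg hu hm.le) hdom).1
  rw [hL3] at h1
  rw [mul_comm]
  exact mul_le_mul_of_nonneg_left h1 (Real.rpow_pos_of_pos hN0 a).le

theorem KCert.bd {K : KCert} {a γ κ : ℝ} (hK : K.Hyp k a γ κ) {x p : Fin (k + 1) → ℝ}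
    {A : Fin (k + 1) → Fin (k + 1) → ℝ} {Q : ℝ} (hB : BJet x p A Q) (hN0 : 0 < jN A)
    {v : Fin 7 → ℝ} (hv : v = ![0, 1, jN A, jC3 A, jc4 A, Q, Q ^ 2]) :
    Q * (K.toCS a).φ.f v ≤ ((K.toCS a).c 0).f v * (2 * Q * jN A - jC3 A) +
      ((K.toCS a).c 1).f v + ((K.toCS a).c 2).f v * Q +
      ((K.toCS a).c 3).f v * Q ^ 2 + ((K.toCS a).c 4).f v * Q ^ 3 +
      ((K.toCS a).c 5).f v * (Q * jC3 A - jc4 A + jN A * Q ^ 2) +
      ((K.toCS a).c 6).f v * (Q * jc4 A - jc5 A + jN A * Q ^ 3) +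
      ((K.toCS a).c 7).f v * jN A + ((K.toCS a).c 8).f v * (Q * jN A) := by
  obtain ⟨T, hJ⟩ := exists_jet p hB.unit hB.symA hB.trA hB.Ax
  obtain ⟨b, l, h⟩ := exists_frame x A hJ.unit hJ.symA hJ.Ax
  set m := Real.sqrt (jN A) with hmd
  have hm : 0 < m := Real.sqrt_pos.2 hN0
  have hN : jN A = m ^ 2 := (Real.sq_sqrt hN0.le).symm
  -- `Q` is an eigenvalue
  have hQ : ∃ i, l i = Q := by
    by_contra hne
    push Not at hne
    have h1 : ∀ i, dot (b i) p = 0 := by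
      intro i
      have h2 := h.dot_mv hJ.symA i p
      have h3 : dot (b i) (mv A p) = Q * dot (b i) p := by
        unfold dot
        rw [Finset.mul_sum]
        refine Finset.sum_congr rfl fun c _ => ?_
        rw [hB.Ap c]
        ring
      rw [h3] at h2
      have h4 : (l i - Q) * dot (b i) p = 0 := by linarith
      rcases mul_eq_zero.1 h4 with h5 | h5
      · exact absurd (by linarith) (hne i)
      · exact h5
    have h6 := h.sum_sq p
    have h7 : dot x p = 0 := hB.xp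
    rw [hB.pp, h7] at h6
    simp [h1] at h6
  obtain ⟨i, hi⟩ := hQ
  have hL1 : ∑ i, l i / m = 0 := by
    rw [← Finset.sum_div, h.sum_l hJ, zero_div]
  have hL2 : ∑ i, (l i / m) ^ 2 = 1 := by
    simp only [div_pow]
    rw [← Finset.sum_div, ← h.jN_eq hJ, hN, div_self]
    positivity
  have hL3 : ∑ i, (l i / m) ^ 3 = jC3 A / m ^ 3 := by
    simp only [div_pow]
    rw [← Finset.sum_div, ← h.jC3_eq hJ]
  have hb := hK.bdry (fun i => l i / m) hL1 hL2 i (by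
    rw [hi]
    exact div_nonpos_of_nonpos_of_nonneg hB.neg hm.le)
  simp only [hL3, hi] at hb
  obtain ⟨r1, r2, r3, r5, ra⟩ := rpow_facts hm hN
  obtain ⟨ra1, ra2, ra3⟩ := ra a
  have hkz : kz v = 0 := by
    rw [hv]
    show (0 : ℝ) * _ = 0
    ring
  have hkc : kc v = jC3 A / m ^ 3 := by
    rw [hv]
    show jC3 A * jN A ^ (-(3 / 2) : ℝ) = _
    rw [r3]
    ring
  have hv1 : v 1 = 1 := by rw [hv]; rfl
  have hv2 : v 2 = jN A := by rw [hv]; rfl
  have gen : ∀ (H : KF) (q : ℝ), (H.toCo q).f v = jN A ^ q * H.f 1 0 (jC3 A / m ^ 3) := by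
    intro H q
    show v 2 ^ q * H.f (v 1) (kz v) (kc v) = _
    rw [hkz, hkc, hv1, hv2]
  have c0 : ((K.toCS a).c 0).f v = jN A ^ a / m ^ 2 * K.G.f 1 0 (jC3 A / m ^ 3) := by
    rw [← ra1]; exact gen K.G (a - 1)
  have c1 : ((K.toCS a).c 1).f v = jN A ^ a * m * K.F0.f 1 0 (jC3 A / m ^ 3) := by
    rw [← ra2]; exact gen K.F0 (a + 1 / 2)
  have c2 : ((K.toCS a).c 2).f v = jN A ^ a * K.F1.f 1 0 (jC3 A / m ^ 3) := gen K.F1 a
  have c3 : ((K.toCS a).c 3).f v = jN A ^ a / m * K.F2.f 1 0 (jC3 A / m ^ 3) := by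
    rw [← ra3]; exact gen K.F2 (a - 1 / 2)
  have c4 : ((K.toCS a).c 4).f v = jN A ^ a / m ^ 2 * K.F3.f 1 0 (jC3 A / m ^ 3) := by
    rw [← ra1]; exact gen K.F3 (a - 1)
  have c5 : ((K.toCS a).c 5).f v = 0 := rfl
  have c6 : ((K.toCS a).c 6).f v = 0 := rfl
  have c7 : ((K.toCS a).c 7).f v = 0 := rfl
  have c8 : ((K.toCS a).c 8).f v = 0 := rfl
  have cφ : (K.toCS a).φ.f v = jN A ^ a * K.e.f 1 0 (jC3 A / m ^ 3) := gen K.e a
  rw [c0, c1, c2, c3, c4, c5, c6, c7, c8, cφ]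
  set P := jN A ^ a with hPd
  have hP : 0 < P := Real.rpow_pos_of_pos hN0 a
  set c := jC3 A / m ^ 3 with hcd
  have hc3 : jC3 A = m ^ 3 * c := by
    simp only [c]
    field_simp
  set w := Q / m with hwd
  have hQw : Q = m * w := by
    simp only [w]
    field_simp
  have hfin := mul_le_mul_of_nonneg_left hb (mul_pos hP hm).le
  rw [hQw, hc3, hN]
  refine le_of_eq_of_le ?_ (hfin.trans (le_of_eq ?_))
  · ring
  · field_simp
    ring

/-- **class K certificates are certificates** -/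
theorem certi_of_hyp {K : KCert} {a γ κ : ℝ} (hG : K.Good) (hK : K.Hyp k a γ κ) :
    Certi (k + 1) (((k : ℝ) - 1) / 2) γ a κ (K.toCS a) where
  a_lo := hK.a_lo
  int := fun _ _ _ _ hJ hu hκ hN => certi_int K hK hJ hu hκ hN
  bdry := fun _ _ _ _ hB hN _ hv => KCert.bd hK hB hN hv
  lower := KCert.lower hK
  zero := by
    intro v h2 _ _ _ _
    show v 2 ^ a * _ = 0
    rw [h2, Real.zero_rpow (by have := hK.a_lo; linarith), zero_mul]
  upper := KCert.upper hG a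

end Vale.Agent.P098
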